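import Mathlib

/-!
The noisy observation channel on the unit interval and its quantile coupling.
-/

open MeasureTheory

noncomputable section

namespace P143

/-- Uniform probability measure on `[0,1]`, as a measure on `ℝ`. -/
def lam : Measure ℝ := volume.restrict (Set.Icc (0:ℝ) 1)

instance : IsProbabilityMeasure lam := ⟨by simp [lam]⟩

/-- Clamp to the unit interval. -/
def cl (x : ℝ) : ℝ := max 0 (min x 1)

lemma cl_nonneg (x : ℝ) : 0 ≤ cl x := le_max_left _ _

lemma cl_le_one (x : ℝ) : cl x ≤ 1 := max_le zero_le_one (min_le_right _ _)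

lemma cl_of_mem {x : ℝ} (h0 : 0 ≤ x) (h1 : x ≤ 1) : cl x = x := by
  simp [cl, h0, h1]

lemma abs_cl_sub_cl (x y : ℝ) : |cl x - cl y| ≤ |x - y| :=
  (abs_max_sub_max_le_max 0 _ 0 _).trans
    (by
      rw [sub_self, abs_zero]
      exact max_le (abs_nonneg _) ((abs_min_sub_min_le_max x 1 y 1).trans (by simp)))

@[fun_prop]
lemma measurable_cl : Measurable cl := by unfold cl; fun_prop

lemma ae_mem_Icc : ∀ᵐ u ∂lam, u ∈ Set.Icc (0:ℝ) 1 :=
  ae_restrict_mem measurableSet_Icc

/-- Bias of the channel for a posterior mean `m`. -/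
def bias (m : ℝ) : ℝ := (2 * cl m - 1) / 4

/-- Bias of the channel for a known bit. -/
def bbias (b : Bool) : ℝ := if b then 1/4 else -(1/4)

lemma abs_bias_le (m : ℝ) : |bias m| ≤ 1/4 := by
  have := cl_nonneg m; have := cl_le_one m
  rw [abs_le]; unfold bias; constructor <;> linarith

lemma abs_bbias_le (b : Bool) : |bbias b| ≤ 1/4 := by cases b <;> simp [bbias]

lemma abs_bias_sub (m m' : ℝ) : |bias m - bias m'| ≤ |m - m'| / 2 := by
  have h := abs_cl_sub_cl m m'
  have : bias m - bias m' = (cl m - cl m') / 2 := by unfold bias; ring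
  rw [this, abs_div]; norm_num; linarith

@[fun_prop]
lemma measurable_bias : Measurable bias := by unfold bias; fun_prop

/-- Density of the channel. -/
def dens (d z : ℝ) : ℝ := 1 + d * (2 * z - 1)

/-- Distribution function of the channel. -/
def Fc (d z : ℝ) : ℝ := z + d * (z ^ 2 - z)

/-- Quantile function of the channel. -/
def q (d u : ℝ) : ℝ :=
  2 * cl u / ((1 - d) + Real.sqrt ((1 - d) ^ 2 + 4 * d * cl u))

@[fun_prop]
lemma measurable_q : Measurable (fun p : ℝ × ℝ => q p.1 p.2) := by unfold q; fun_prop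

@[fun_prop]
lemma measurable_q_right (d : ℝ) : Measurable (q d) := by unfold q; fun_prop

@[fun_prop]
lemma measurable_Fc : Measurable (fun p : ℝ × ℝ => Fc p.1 p.2) := by unfold Fc; fun_prop

@[fun_prop]
lemma measurable_Fc_right (d : ℝ) : Measurable (Fc d) := by unfold Fc; fun_prop

section

variable {d : ℝ} (hd : |d| ≤ 1/4)

include hd

lemma disc_nonneg (u : ℝ) : 0 ≤ (1 - d) ^ 2 + 4 * d * cl u := by
  have := cl_nonneg u; have := cl_le_one u
  obtain ⟨h1, h2⟩ := abs_le.1 hd
  nlinarith

lemma q_denom_pos (u : ℝ) : 0 < (1 - d) + Real.sqrt ((1 - d) ^ 2 + 4 * d * cl u) := by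
  obtain ⟨h1, h2⟩ := abs_le.1 hd
  have := Real.sqrt_nonneg ((1 - d) ^ 2 + 4 * d * cl u)
  linarith

lemma Fc_q (u : ℝ) : Fc d (q d u) = cl u := by
  have ht := q_denom_pos hd u
  have hD := Real.sq_sqrt (disc_nonneg hd u)
  unfold Fc q
  generalize Real.sqrt ((1 - d) ^ 2 + 4 * d * cl u) = D at ht hD ⊢
  field_simp
  linear_combination -(cl u) * hD

lemma q_nonneg (u : ℝ) : 0 ≤ q d u :=
  div_nonneg (by linarith [cl_nonneg u]) (q_denom_pos hd u).le

lemma q_le_one (u : ℝ) : q d u ≤ 1 := by
  unfold q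
  rw [div_le_one (q_denom_pos hd u)]
  have hD := Real.sq_sqrt (disc_nonneg hd u)
  have h0 := Real.sqrt_nonneg ((1 - d) ^ 2 + 4 * d * cl u)
  generalize Real.sqrt ((1 - d) ^ 2 + 4 * d * cl u) = D at hD h0 ⊢
  have := cl_nonneg u; have := cl_le_one u
  nlinarith

lemma Fc_mono {a b : ℝ} (ha : 0 ≤ a) (hb : b ≤ 1) (hab : a ≤ b) :
    3/4 * (b - a) ≤ Fc d b - Fc d a := by
  have h : Fc d b - Fc d a = (b - a) * (1 + d * (b + a - 1)) := by unfold Fc; ring
  have h1 : -(1/4 : ℝ) ≤ d * (b + a - 1) := by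
    obtain ⟨h1, h2⟩ := abs_le.1 hd
    nlinarith
  rw [h]
  nlinarith

lemma abs_sub_le_Fc {a b : ℝ} (ha : 0 ≤ a) (ha' : a ≤ 1) (hb : 0 ≤ b) (hb' : b ≤ 1) :
    3/4 * |a - b| ≤ |Fc d a - Fc d b| := by
  rcases le_total a b with h | h
  · rw [abs_sub_comm, abs_of_nonneg (sub_nonneg.2 h), abs_sub_comm]
    exact (Fc_mono hd ha hb' h).trans (le_abs_self _)
  · rw [abs_of_nonneg (sub_nonneg.2 h)]
    exact (Fc_mono hd hb ha' h).trans (le_abs_self _)

lemma q_Fc {z : ℝ} (h0 : 0 ≤ z) (h1 : z ≤ 1) : q d (Fc d z) = z := by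
  have hF0 := Fc_mono hd le_rfl h1 h0
  have hF1 := Fc_mono hd h0 le_rfl h1
  have e0 : Fc d 0 = 0 := by simp [Fc]
  have e1 : Fc d 1 = 1 := by simp [Fc]
  have hc : cl (Fc d z) = Fc d z := cl_of_mem (by linarith) (by linarith)
  have h := abs_sub_le_Fc hd (q_nonneg hd (Fc d z)) (q_le_one hd _) h0 h1
  rw [Fc_q hd, hc, sub_self, abs_zero] at h
  have : |q d (Fc d z) - z| = 0 := le_antisymm (by linarith) (abs_nonneg _)
  linarith [abs_eq_zero.1 this]

lemma abs_q_sub {d' : ℝ} (hd' : |d'| ≤ 1/4) (u : ℝ) :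
    |q d u - q d' u| ≤ |d - d'| / 3 := by
  have h := abs_sub_le_Fc hd (q_nonneg hd u) (q_le_one hd u) (q_nonneg hd' u) (q_le_one hd' u)
  have e : Fc d (q d u) - Fc d (q d' u)
      = (d' - d) * ((q d' u) ^ 2 - q d' u) := by
    have h1 := Fc_q hd u
    have h2 := Fc_q hd' u
    unfold Fc at *
    linarith
  rw [e, abs_mul, abs_sub_comm d' d] at h
  have hb : |(q d' u) ^ 2 - q d' u| ≤ 1/4 := by
    have := q_nonneg hd' u; have := q_le_one hd' u
    rw [abs_le]; constructor <;> nlinarith [sq_nonneg (q d' u - 1/2)]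
  nlinarith [abs_nonneg (d - d')]

lemma lintegral_dens {a : ℝ} (h0 : 0 ≤ a) (h1 : a ≤ 1) :
    ∫⁻ z in Set.Icc 0 a, ENNReal.ofReal (dens d z) = ENNReal.ofReal (Fc d a) := by
  rw [← ofReal_integral_eq_lintegral_ofReal]
  · rw [integral_Icc_eq_integral_Ioc, ← intervalIntegral.integral_of_le h0]
    congr 1
    rw [intervalIntegral.integral_eq_sub_of_hasDerivAt (f := Fc d)]
    · simp [Fc]
    · intro x _
      have := (hasDerivAt_id x).add ((((hasDerivAt_id x).pow 2).sub (hasDerivAt_id x)).const_mul d)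
      convert this using 1 <;> [rfl; (simp [dens])]
    · apply Continuous.intervalIntegrable
      unfold dens; fun_prop
  · apply Continuous.integrableOn_Icc
    unfold dens; fun_prop
  · filter_upwards [ae_restrict_mem measurableSet_Icc] with z hz
    obtain ⟨hz0, hz1⟩ := hz
    obtain ⟨d1, d2⟩ := abs_le.1 hd
    show 0 ≤ dens d z
    unfold dens
    nlinarith

/-- The quantile map pushes the uniform measure to the channel law. -/
lemma map_q : lam.map (q d) = lam.withDensity (fun z => ENNReal.ofReal (dens d z)) := by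
  refine Measure.ext_of_Iic _ _ fun a => ?_
  rw [Measure.map_apply (measurable_q_right d) measurableSet_Iic,
    withDensity_apply _ measurableSet_Iic]
  unfold lam
  rw [Measure.restrict_apply ((measurable_q_right d) measurableSet_Iic),
    Measure.restrict_restrict measurableSet_Iic]
  rcases lt_or_ge a 0 with ha | ha
  · have e1 : q d ⁻¹' Set.Iic a ∩ Set.Icc 0 1 = ∅ := by
      ext u; simp only [Set.mem_inter_iff, Set.mem_preimage, Set.mem_Iic, Set.mem_empty_iff_false,
        iff_false, not_and]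
      intro h; linarith [q_nonneg hd u]
    have e2 : Set.Iic a ∩ Set.Icc (0:ℝ) 1 = ∅ := by
      ext u; simp only [Set.mem_inter_iff, Set.mem_Iic, Set.mem_Icc, Set.mem_empty_iff_false,
        iff_false, not_and]
      intro h h'; linarith
    simp [e1, e2]
  · set a' := min a 1 with ha'
    have h0 : 0 ≤ a' := le_min ha zero_le_one
    have h1 : a' ≤ 1 := min_le_right _ _
    have e2 : Set.Iic a ∩ Set.Icc (0:ℝ) 1 = Set.Icc 0 a' := by
      ext u; simp only [ha', Set.mem_inter_iff, Set.mem_Iic, Set.mem_Icc, le_min_iff]; tauto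
    have e1 : q d ⁻¹' Set.Iic a ∩ Set.Icc 0 1 = Set.Icc 0 (Fc d a') := by
      have hF0 := Fc_mono hd le_rfl h1 h0
      have hF1 := Fc_mono hd h0 le_rfl h1
      have f0 : Fc d 0 = 0 := by simp [Fc]
      have f1 : Fc d 1 = 1 := by simp [Fc]
      ext u
      simp only [Set.mem_inter_iff, Set.mem_preimage, Set.mem_Iic, Set.mem_Icc]
      constructor
      · rintro ⟨hq, hu0, hu1⟩
        have := Fc_mono hd (q_nonneg hd u) h1 (le_min hq (q_le_one hd u))
        rw [Fc_q hd, cl_of_mem hu0 hu1] at this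
        have hqa : q d u ≤ a' := le_min hq (q_le_one hd u)
        exact ⟨hu0, by linarith⟩
      · rintro ⟨hu0, hu⟩
        refine ⟨?_, hu0, by linarith⟩
        by_contra hc
        push Not at hc
        have hlt : a' < q d u := lt_of_le_of_lt (min_le_left _ _) hc
        have := Fc_mono hd h0 (q_le_one hd u) hlt.le
        rw [Fc_q hd, cl_of_mem hu0 (by linarith)] at this
        linarith
    rw [e1, e2, lintegral_dens hd h0 h1, Real.volume_Icc, sub_zero]

end

/-- Log-likelihood ratio of the channel. -/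
def ell (z : ℝ) : ℝ :=
  Real.log (1 + (2 * cl z - 1) / 4) - Real.log (1 - (2 * cl z - 1) / 4)

@[fun_prop]
lemma measurable_ell : Measurable ell := by unfold ell; fun_prop

lemma log_sub_le {x y : ℝ} (hx : 3/4 ≤ x) (hy : 3/4 ≤ y) :
    Real.log x - Real.log y ≤ 4/3 * |x - y| := by
  rw [← Real.log_div (by positivity) (by positivity)]
  refine (Real.log_le_sub_one_of_pos (by positivity)).trans ?_
  rw [div_sub_one (by linarith)]
  refine (div_le_div_of_nonneg_right (le_abs_self _) (by linarith)).trans ?_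
  rw [div_le_iff₀ (by linarith)]
  nlinarith [abs_nonneg (x - y)]

lemma abs_ell_sub (z z' : ℝ) : |ell z - ell z'| ≤ 4/3 * |z - z'| := by
  have key : ∀ a b : ℝ, ell a - ell b ≤ 4/3 * |a - b| := by
    intro a b
    have := cl_nonneg a; have := cl_le_one a; have := cl_nonneg b; have := cl_le_one b
    have h1 := log_sub_le (x := 1 + (2 * cl a - 1) / 4) (y := 1 + (2 * cl b - 1) / 4)
      (by linarith) (by linarith)
    have h2 := log_sub_le (x := 1 - (2 * cl b - 1) / 4) (y := 1 - (2 * cl a - 1) / 4)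
      (by linarith) (by linarith)
    have e1 : (1 + (2 * cl a - 1) / 4) - (1 + (2 * cl b - 1) / 4) = (cl a - cl b) / 2 := by ring
    have e2 : (1 - (2 * cl b - 1) / 4) - (1 - (2 * cl a - 1) / 4) = (cl a - cl b) / 2 := by ring
    rw [e1] at h1; rw [e2] at h2
    have := abs_cl_sub_cl a b
    rw [abs_div, abs_two] at h1 h2
    unfold ell; linarith
  rw [abs_le]
  exact ⟨by linarith [key z' z, abs_sub_comm z z'], key z z'⟩

lemma dens_bbias (b : Bool) {z : ℝ} (h0 : 0 ≤ z) (h1 : z ≤ 1) :
    dens (bbias b) z = dens (bbias false) z * Real.exp (if b then ell z else 0) := by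
  cases b
  · simp
  · simp only [if_true, dens, bbias, Bool.false_eq_true, if_false, ell, cl_of_mem h0 h1]
    rw [← Real.log_div (by linarith) (by linarith), Real.exp_log (by
      apply div_pos <;> linarith)]
    have hne : 1 - (2 * z - 1) / 4 ≠ 0 := by linarith
    have e : 1 + -(1/4 : ℝ) * (2 * z - 1) = 1 - (2 * z - 1) / 4 := by ring
    rw [e, mul_div_cancel₀ _ hne]
    ring

lemma bias_mix (m z : ℝ) :
    dens (bias m) z = cl m * dens (bbias true) z + (1 - cl m) * dens (bbias false) z := by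
  simp only [dens, bias, bbias, if_true, Bool.false_eq_true, if_false]; ring

lemma dens_bbias_nonneg (b : Bool) : ∀ᵐ z ∂lam, 0 ≤ dens (bbias b) z := by
  filter_upwards [ae_mem_Icc] with z hz
  obtain ⟨h0, h1⟩ := hz
  cases b <;> simp [dens, bbias] <;> linarith

lemma map_q_mix (m : ℝ) :
    lam.map (q (bias m)) = ENNReal.ofReal (cl m) • lam.map (q (bbias true))
      + ENNReal.ofReal (1 - cl m) • lam.map (q (bbias false)) := by
  rw [map_q (abs_bias_le m), map_q (abs_bbias_le true), map_q (abs_bbias_le false),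
    ← withDensity_smul _ (by unfold dens; fun_prop), ← withDensity_smul _ (by unfold dens; fun_prop),
    ← withDensity_add_left (by unfold dens; fun_prop)]
  refine withDensity_congr_ae ?_
  filter_upwards [dens_bbias_nonneg true, dens_bbias_nonneg false] with z ht hf
  have := cl_nonneg m; have := cl_le_one m
  simp only [Pi.add_apply, Pi.smul_apply, smul_eq_mul]
  rw [bias_mix, ENNReal.ofReal_add (by positivity) (mul_nonneg (by linarith) hf),
    ENNReal.ofReal_mul (cl_nonneg m), ENNReal.ofReal_mul (by linarith)]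

/-- The quantile coupling: mixing the two channel laws gives back the uniform measure. -/
lemma mix_uniform (m : ℝ) {B : Set ℝ} (hB : MeasurableSet B) :
    ENNReal.ofReal (cl m) * lam {s | Fc (bias m) (q (bbias true) s) ∈ B}
      + ENNReal.ofReal (1 - cl m) * lam {s | Fc (bias m) (q (bbias false) s) ∈ B} = lam B := by
  have h := congrArg (fun ν : Measure ℝ => ν (Fc (bias m) ⁻¹' B)) (map_q_mix m)
  have hm := (measurable_Fc_right (bias m)) hB
  simp only [Measure.add_apply, Measure.smul_apply, smul_eq_mul,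
    Measure.map_apply (measurable_q_right _) hm] at h
  refine Eq.trans ?_ (h.symm.trans ?_)
  · rfl
  · refine measure_congr ?_
    filter_upwards [ae_mem_Icc] with s hs
    show (Fc (bias m) (q (bias m) s) ∈ B) = (s ∈ B)
    rw [Fc_q (abs_bias_le m), cl_of_mem hs.1 hs.2]

lemma integral_q (b : Bool) :
    ∫ u, (2 * q (bbias b) u - 1) ∂lam = bbias b / 3 := by
  have h1 : ∫ u, (2 * q (bbias b) u - 1) ∂lam = ∫ z, (2 * z - 1) ∂(lam.map (q (bbias b))) := by
    rw [integral_map (measurable_q_right _).aemeasurable (by fun_prop)]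
  rw [h1, map_q (abs_bbias_le b),
    integral_withDensity_eq_integral_toReal_smul (by unfold dens; fun_prop)
      (Filter.Eventually.of_forall fun _ => ENNReal.ofReal_lt_top)]
  have : ∀ᵐ z ∂lam, (ENNReal.ofReal (dens (bbias b) z)).toReal • (2 * z - 1)
      = (2 * z - 1) * dens (bbias b) z := by
    filter_upwards [dens_bbias_nonneg b] with z hz
    rw [ENNReal.toReal_ofReal hz, smul_eq_mul, mul_comm]
  rw [integral_congr_ae this]
  unfold lam
  rw [integral_Icc_eq_integral_Ioc, ← intervalIntegral.integral_of_le zero_le_one,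
    intervalIntegral.integral_eq_sub_of_hasDerivAt
      (f := fun z => z ^ 2 - z + bbias b * ((2 * z - 1) ^ 3 / 6))]
  · ring
  · intro x _
    have := (((hasDerivAt_id x).pow 2).sub (hasDerivAt_id x)).add
      ((((((hasDerivAt_id x).const_mul 2).sub_const 1).pow 3).div_const 6).const_mul (bbias b))
    convert this using 1 <;> [rfl; (simp [dens]; ring)]
  · apply Continuous.intervalIntegrable
    unfold dens; fun_prop

end P143
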