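import Mathlib
import Vale.Agent.P143.Channel

/-!
The equivariant sampler: rounds of noisy observations, each round solved by a
contraction in the supremum norm.
-/

open MeasureTheory Filter

noncomputable section

namespace P143

variable {E : Type*}

/-- The external field seen by `e`: previous rounds and earlier observations of this round. -/
def earlier (w prev z : E → ℝ) (e : E) : E → ℝ :=
  fun f => prev f + if w f < w e then ell (z f) else 0

/-- One iteration of the round map. -/
def step (m : E → (E → ℝ) → ℝ) (w u prev z : E → ℝ) : E → ℝ :=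
  fun e => q (bias (m e (earlier w prev z e))) (u e)

/-- Iterates of the round map. -/
def iter (m : E → (E → ℝ) → ℝ) (w u prev : E → ℝ) : ℕ → E → ℝ
  | 0 => fun _ => 0
  | n + 1 => step m w u prev (iter m w u prev n)

/-- The limit of the iterates. -/
def solve (m : E → (E → ℝ) → ℝ) (w u prev : E → ℝ) : E → ℝ :=
  fun e => limsup (fun n => iter m w u prev n e) atTop

/-- Accumulated log-likelihood ratios before round `k`. -/
def acc (m : E → (E → ℝ) → ℝ) (w u : E × ℕ → ℝ) : ℕ → E → ℝ
  | 0 => fun _ => 0
  | k + 1 => fun e => acc m w u k e +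
      ell (solve m (fun f => w (f, k)) (fun f => u (f, k)) (acc m w u k) e)

/-- The observation produced in round `k`. -/
def obsAlg (m : E → (E → ℝ) → ℝ) (w u : E × ℕ → ℝ) (k : ℕ) : E → ℝ :=
  solve m (fun f => w (f, k)) (fun f => u (f, k)) (acc m w u k)

/-- Decoding a bit from its observations. -/
def decode (z : ℕ → ℝ) : Bool :=
  if 0 < limsup (fun n : ℕ => (∑ r ∈ Finset.range n, (2 * z r - 1)) / n) atTop then true else false

/-- The sampler. -/
def sample (m : E → (E → ℝ) → ℝ) (w u : E × ℕ → ℝ) (e : E) : Bool :=
  decode (fun k => obsAlg m w u k e)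

@[fun_prop]
lemma measurable_decode : Measurable decode := by
  refine Measurable.ite (measurableSet_lt measurable_const ?_) measurable_const measurable_const
  exact Measurable.limsup fun n => by fun_prop

section Measurability

variable {P : Type*} [MeasurableSpace P] {m : P → E → (E → ℝ) → ℝ}
  (hm : ∀ e, Measurable fun p : P × (E → ℝ) => m p.1 e p.2)

include hm

lemma measurable_iter {Q : Type*} [MeasurableSpace Q] {a : Q → P} (ha : Measurable a)
    {w u prev : Q → E → ℝ} (hw : Measurable w) (hu : Measurable u) (hp : Measurable prev)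
    (n : ℕ) : Measurable fun x => iter (m (a x)) (w x) (u x) (prev x) n := by
  induction n with
  | zero => exact measurable_const
  | succ n ih =>
    refine measurable_pi_lambda _ fun e => ?_
    have hearl : Measurable fun x => earlier (w x) (prev x) (iter (m (a x)) (w x) (u x) (prev x) n) e := by
      refine measurable_pi_lambda _ fun f => ?_
      unfold earlier
      refine ((measurable_pi_apply f).comp hp).add (Measurable.ite ?_ ?_ measurable_const)
      · exact measurableSet_lt ((measurable_pi_apply f).comp hw) ((measurable_pi_apply e).comp hw)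
      · exact measurable_ell.comp ((measurable_pi_apply f).comp ih)
    have hmm : Measurable fun x => m (a x) e (earlier (w x) (prev x) (iter (m (a x)) (w x) (u x) (prev x) n) e) :=
      (hm e).comp (ha.prodMk hearl)
    exact measurable_q.comp ((measurable_bias.comp hmm).prodMk ((measurable_pi_apply e).comp hu))

lemma measurable_solve {Q : Type*} [MeasurableSpace Q] {a : Q → P} (ha : Measurable a)
    {w u prev : Q → E → ℝ} (hw : Measurable w) (hu : Measurable u) (hp : Measurable prev) :
    Measurable fun x => solve (m (a x)) (w x) (u x) (prev x) :=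
  measurable_pi_lambda _ fun e => Measurable.limsup fun n =>
    (measurable_pi_apply e).comp (measurable_iter hm ha hw hu hp n)

lemma measurable_acc {Q : Type*} [MeasurableSpace Q] {a : Q → P} (ha : Measurable a)
    {w u : Q → E × ℕ → ℝ} (hw : Measurable w) (hu : Measurable u) (k : ℕ) :
    Measurable fun x => acc (m (a x)) (w x) (u x) k := by
  induction k with
  | zero => exact measurable_const
  | succ k ih =>
    refine measurable_pi_lambda _ fun e => ?_
    exact ((measurable_pi_apply e).comp ih).add (measurable_ell.comp ((measurable_pi_apply e).comp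
      (measurable_solve hm ha (by fun_prop) (by fun_prop) ih)))

lemma measurable_sample {Q : Type*} [MeasurableSpace Q] {a : Q → P} (ha : Measurable a)
    {w u : Q → E × ℕ → ℝ} (hw : Measurable w) (hu : Measurable u) :
    Measurable fun x => sample (m (a x)) (w x) (u x) := by
  refine measurable_pi_lambda _ fun e => measurable_decode.comp (measurable_pi_lambda _ fun k => ?_)
  exact (measurable_pi_apply e).comp
    (measurable_solve hm ha (by fun_prop) (by fun_prop) (measurable_acc hm ha hw hu k))

end Measurability

section Locality

variable {m : E → (E → ℝ) → ℝ} {E₀ : Set E}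
  (hloc : ∀ e ∈ E₀, ∀ y y' : E → ℝ, (∀ f ∈ E₀, y f = y' f) → m e y = m e y')

include hloc

lemma solve_local {w w' u u' prev prev' : E → ℝ} (hw : ∀ f ∈ E₀, w f = w' f)
    (hu : ∀ f ∈ E₀, u f = u' f) (hp : ∀ f ∈ E₀, prev f = prev' f) :
    ∀ e ∈ E₀, solve m w u prev e = solve m w' u' prev' e := by
  have h : ∀ n, ∀ e ∈ E₀, iter m w u prev n e = iter m w' u' prev' n e := by
    intro n
    induction n with
    | zero => intros; rfl
    | succ n ih =>
      intro e he
      simp only [iter, step, hu e he]
      rw [hloc e he _ (earlier w' prev' (iter m w' u' prev' n) e)]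
      intro f hf
      simp only [earlier, hp f hf, hw f hf, hw e he, ih f hf]
  intro e he
  unfold solve
  simp only [h _ e he]

lemma acc_local {w w' u u' : E × ℕ → ℝ} (hw : ∀ f ∈ E₀, ∀ k, w (f, k) = w' (f, k))
    (hu : ∀ f ∈ E₀, ∀ k, u (f, k) = u' (f, k)) (k : ℕ) :
    ∀ e ∈ E₀, acc m w u k e = acc m w' u' k e := by
  induction k with
  | zero => intros; rfl
  | succ k ih =>
    intro e he
    simp only [acc, ih e he]
    rw [solve_local hloc (fun f hf => hw f hf k) (fun f hf => hu f hf k) ih e he]

lemma sample_local {w w' u u' : E × ℕ → ℝ} (hw : ∀ f ∈ E₀, ∀ k, w (f, k) = w' (f, k))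
    (hu : ∀ f ∈ E₀, ∀ k, u (f, k) = u' (f, k)) :
    ∀ e ∈ E₀, sample m w u e = sample m w' u' e := by
  intro e he
  unfold sample obsAlg
  congr 1
  funext k
  exact solve_local hloc (fun f hf => hw f hf k) (fun f hf => hu f hf k)
    (acc_local hloc hw hu k) e he

end Locality

section Equivariance

variable {E' : Type*} {σ : E ≃ E'} {m : E → (E → ℝ) → ℝ} {m' : E' → (E' → ℝ) → ℝ}
  (hσ : ∀ e y, m' (σ e) y = m e (fun f => y (σ f)))

include hσ

lemma solve_equiv (w' u' prev' : E' → ℝ) (e : E) :
    solve m' w' u' prev' (σ e) =
      solve m (fun f => w' (σ f)) (fun f => u' (σ f)) (fun f => prev' (σ f)) e := by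
  have h : ∀ n e, iter m' w' u' prev' n (σ e) =
      iter m (fun f => w' (σ f)) (fun f => u' (σ f)) (fun f => prev' (σ f)) n e := by
    intro n
    induction n with
    | zero => intro e; rfl
    | succ n ih =>
      intro e
      simp only [iter, step, hσ]
      congr 3
      funext f
      simp only [earlier, ih f]
  unfold solve
  simp only [h]

lemma acc_equiv (w' u' : E' × ℕ → ℝ) (k : ℕ) (e : E) :
    acc m' w' u' k (σ e) =
      acc m (fun r => w' (σ r.1, r.2)) (fun r => u' (σ r.1, r.2)) k e := by
  induction k generalizing e with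
  | zero => rfl
  | succ k ih =>
    simp only [acc, solve_equiv hσ]
    rw [ih e, funext ih]

lemma sample_equiv (w' u' : E' × ℕ → ℝ) (e : E) :
    sample m' w' u' (σ e) =
      sample m (fun r => w' (σ r.1, r.2)) (fun r => u' (σ r.1, r.2)) e := by
  unfold sample obsAlg
  congr 1
  funext k
  rw [solve_equiv hσ, funext (acc_equiv hσ w' u' k)]

end Equivariance

/-- A bounded fixed point of the round map is found by iteration. -/
lemma solve_eq_of_fixed {m : E → (E → ℝ) → ℝ}
    (hlip : ∀ e η y y', 0 ≤ η → (∀ f, |y f - y' f| ≤ η) → |m e y - m e y'| ≤ 2 * η)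
    {w u prev z : E → ℝ} (hz : ∀ e, z e ∈ Set.Icc (0:ℝ) 1) (hfix : step m w u prev z = z) :
    solve m w u prev = z := by
  have h : ∀ n e, |iter m w u prev n e - z e| ≤ (4/9 : ℝ) ^ n := by
    intro n
    induction n with
    | zero =>
      intro e
      obtain ⟨h0, h1⟩ := hz e
      simp only [iter, zero_sub, abs_neg, pow_zero]
      rw [abs_of_nonneg h0]; exact h1
    | succ n ih =>
      intro e
      rw [← congrFun hfix e]
      simp only [iter, step]
      refine (abs_q_sub (abs_bias_le _) (abs_bias_le _) _).trans ?_
      have hb := abs_bias_sub (m e (earlier w prev (iter m w u prev n) e))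
        (m e (earlier w prev z e))
      have hl := hlip e (4/3 * (4/9 : ℝ) ^ n) (earlier w prev (iter m w u prev n) e)
        (earlier w prev z e) (by positivity) (fun f => by
          unfold earlier
          split_ifs with hlt
          · rw [add_sub_add_left_eq_sub]
            exact (abs_ell_sub _ _).trans (mul_le_mul_of_nonneg_left (ih f) (by norm_num))
          · simp only [add_zero, sub_self, abs_zero]; positivity)
      rw [pow_succ]
      linarith
  funext e
  refine (Tendsto.limsup_eq ?_)
  rw [tendsto_iff_dist_tendsto_zero]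
  exact squeeze_zero (fun n => dist_nonneg) (fun n => h n e)
    (tendsto_pow_atTop_nhds_zero_of_lt_one (by norm_num) (by norm_num))

end P143
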