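import Mathlib

/-!
Weighted spanning forests of finite graphs and the Thomson principle.
-/

open Finset

open scoped Classical

noncomputable section

namespace P143

variable {V : Type*}

/-- The graph of a finite edge set. -/
def gr (T : Finset (Sym2 V)) : SimpleGraph V := SimpleGraph.fromEdgeSet (T : Set (Sym2 V))

lemma gr_adj {T : Finset (Sym2 V)} {a b : V} : (gr T).Adj a b ↔ s(a, b) ∈ T ∧ a ≠ b := by
  simp [gr]

lemma gr_mono {S T : Finset (Sym2 V)} (h : S ⊆ T) : gr S ≤ gr T :=
  SimpleGraph.fromEdgeSet_mono (by exact_mod_cast h)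

lemma reach_mem {T : Finset (Sym2 V)} {a b : V} (h : s(a, b) ∈ T) : (gr T).Reachable a b := by
  rcases eq_or_ne a b with rfl | hne
  · exact .refl a
  · exact (gr_adj.2 ⟨h, hne⟩).reachable

lemma reach_of_edges {S T : Finset (Sym2 V)}
    (h : ∀ a b, s(a, b) ∈ S → (gr T).Reachable a b) {a b : V}
    (hab : (gr S).Reachable a b) : (gr T).Reachable a b := by
  rw [SimpleGraph.reachable_iff_reflTransGen] at hab
  induction hab with
  | refl => exact .refl _
  | tail _ hs ih => exact ih.trans (h _ _ (gr_adj.1 hs).1)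

lemma gr_insert (T : Finset (Sym2 V)) (a b : V) :
    gr (insert s(a, b) T) = gr T ⊔ SimpleGraph.edge a b := by
  ext x y
  simp only [gr_adj, SimpleGraph.sup_adj, SimpleGraph.edge_adj, Finset.mem_insert, Sym2.eq_iff]
  aesop

lemma reach_insert {T : Finset (Sym2 V)} {a b x y : V}
    (h : (gr (insert s(a, b) T)).Reachable x y) :
    (gr T).Reachable x y ∨ ((gr T).Reachable x a ∧ (gr T).Reachable b y) ∨
      ((gr T).Reachable x b ∧ (gr T).Reachable a y) := by
  rw [SimpleGraph.reachable_iff_reflTransGen] at h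
  induction h with
  | refl => exact .inl (.refl _)
  | @tail u v _ hs ih =>
    obtain ⟨he, hne⟩ := gr_adj.1 hs
    rcases Finset.mem_insert.1 he with he | he
    · rw [Sym2.eq_iff] at he
      rcases he with ⟨rfl, rfl⟩ | ⟨rfl, rfl⟩
      · rcases ih with h1 | ⟨h1, h2⟩ | ⟨h1, h2⟩
        · exact .inr (.inl ⟨h1, .refl _⟩)
        · exact .inr (.inl ⟨h1, .refl _⟩)
        · exact .inl h1
      · rcases ih with h1 | ⟨h1, h2⟩ | ⟨h1, h2⟩
        · exact .inr (.inr ⟨h1, .refl _⟩)
        · exact .inl h1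
        · exact .inr (.inr ⟨h1, .refl _⟩)
    · have huv := reach_mem he
      rcases ih with h1 | ⟨h1, h2⟩ | ⟨h1, h2⟩
      · exact .inl (h1.trans huv)
      · exact .inr (.inl ⟨h1, h2.trans huv⟩)
      · exact .inr (.inr ⟨h1, h2.trans huv⟩)

lemma acyclic_insert {T : Finset (Sym2 V)} {a b : V} (h : ¬(gr T).Reachable a b)
    (hT : (gr T).IsAcyclic) : (gr (insert s(a, b) T)).IsAcyclic := by
  rw [gr_insert]
  exact hT.sup_edge_of_not_reachable h

lemma not_reach_erase {T : Finset (Sym2 V)} (hT : (gr T).IsAcyclic) {a b : V}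
    (he : s(a, b) ∈ T) (hne : a ≠ b) : ¬(gr (T.erase s(a, b))).Reachable a b := by
  intro h
  have hd : a ≠ b ∧ s(a, b) ∉ T.erase s(a, b) := ⟨hne, by simp⟩
  have h1 : (gr (T.erase s(a, b)) ⊔ SimpleGraph.edge a b).IsAcyclic := by
    rw [← gr_insert, Finset.insert_erase he]; exact hT
  rcases (SimpleGraph.isAcyclic_sup_fromEdgeSet_iff.1 h1).2 h with h2 | h2
  · exact hne h2
  · exact hd.2 (gr_adj.1 h2).1

/-- Maximal spanning forests of the finite graph with edge set `F`. -/
def IsBasis (F T : Finset (Sym2 V)) : Prop :=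
  T ⊆ F ∧ (gr T).IsAcyclic ∧ ∀ a b, s(a, b) ∈ F → (gr T).Reachable a b

/-- Maximal spanning forests containing `S`. -/
def bases (F S : Finset (Sym2 V)) : Finset (Finset (Sym2 V)) :=
  F.powerset.filter fun T => IsBasis F T ∧ S ⊆ T

lemma mem_bases {F S T : Finset (Sym2 V)} : T ∈ bases F S ↔ IsBasis F T ∧ S ⊆ T := by
  unfold bases
  rw [Finset.mem_filter, Finset.mem_powerset]
  exact ⟨fun h => h.2, fun h => ⟨h.1.1, h⟩⟩

lemma bases_nonempty {F S : Finset (Sym2 V)} (hSF : S ⊆ F) (hS : (gr S).IsAcyclic)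
    (hd : ∀ f ∈ F, ¬f.IsDiag) : (bases F S).Nonempty := by
  obtain ⟨K, hSK, hKF, hK, hR⟩ :=
    SimpleGraph.exists_isAcyclic_reachable_eq_le_of_le_of_isAcyclic (gr_mono hSF) hS
  set T := F.filter (fun f => f ∈ K.edgeSet) with hTdef
  have hTK : gr T = K := by
    ext a b
    simp only [gr_adj, hTdef, Finset.mem_filter, SimpleGraph.mem_edgeSet]
    exact ⟨fun h => h.1.2, fun h => ⟨⟨(gr_adj.1 (hKF h)).1, h⟩, h.ne⟩⟩
  refine ⟨T, mem_bases.2 ⟨⟨Finset.filter_subset _ _, hTK ▸ hK, fun a b h => ?_⟩, ?_⟩⟩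
  · rw [hTK, hR]; exact reach_mem h
  · intro f hf
    induction f using Sym2.inductionOn with
    | hf a b =>
      refine Finset.mem_filter.2 ⟨hSF hf, ?_⟩
      have hne : a ≠ b := by simpa using hd _ (hSF hf)
      exact hSK (gr_adj.2 ⟨hf, hne⟩)

lemma exchange {F U : Finset (Sym2 V)} {a b x y : V}
    (hU : IsBasis F (insert s(a, b) U)) (hxy : s(x, y) ∈ F) (hn : ¬(gr U).Reachable x y) :
    IsBasis F (insert s(x, y) U) := by
  have hUF : U ⊆ F := (Finset.subset_insert _ _).trans hU.1
  refine ⟨Finset.insert_subset_iff.2 ⟨hxy, hUF⟩,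
    acyclic_insert hn (hU.2.1.anti (gr_mono (Finset.subset_insert _ _))), ?_⟩
  have hsub := gr_mono (Finset.subset_insert s(x, y) U)
  have hxy' : (gr (insert s(x, y) U)).Reachable x y := reach_mem (Finset.mem_insert_self _ _)
  have hab : (gr (insert s(x, y) U)).Reachable a b := by
    rcases reach_insert (hU.2.2 x y hxy) with h | ⟨h1, h2⟩ | ⟨h1, h2⟩
    · exact absurd h hn
    · exact ((h1.mono hsub).symm.trans hxy').trans (h2.mono hsub).symm
    · exact ((h2.mono hsub).trans hxy'.symm).trans (h1.mono hsub)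
  intro c d hcd
  refine reach_of_edges (fun p q hpq => ?_) (hU.2.2 c d hcd)
  rcases Finset.mem_insert.1 hpq with h | h
  · rw [Sym2.eq_iff] at h
    rcases h with ⟨rfl, rfl⟩ | ⟨rfl, rfl⟩
    · exact hab
    · exact hab.symm
  · exact (reach_mem h).mono hsub

/-- Weight of an edge set. -/
def wt (w : Sym2 V → ℝ) (T : Finset (Sym2 V)) : ℝ := ∏ f ∈ T, w f

/-- Partition function of the spanning forests containing `S`. -/
def part (w : Sym2 V → ℝ) (F S : Finset (Sym2 V)) : ℝ := ∑ T ∈ bases F S, wt w T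

/-- Partition function of the forests obtained by deleting `e` from those containing `S`, `e`. -/
def num (w : Sym2 V → ℝ) (F S : Finset (Sym2 V)) (e : Sym2 V) : ℝ :=
  ∑ T ∈ bases F (insert e S), wt w (T.erase e)

lemma part_insert (w : Sym2 V → ℝ) (F S : Finset (Sym2 V)) (e : Sym2 V) :
    part w F (insert e S) = w e * num w F S e := by
  unfold part num
  rw [Finset.mul_sum]
  refine Finset.sum_congr rfl fun T hT => ?_
  exact (Finset.mul_prod_erase T w ((mem_bases.1 hT).2 (Finset.mem_insert_self _ _))).symm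

/-- Ordered pairs giving the edges of `A`. -/
def prs (A : Finset (Sym2 V)) : Finset (V × V) :=
  ((A.biUnion Sym2.toFinset) ×ˢ (A.biUnion Sym2.toFinset)).filter fun p => s(p.1, p.2) ∈ A

lemma mem_prs {A : Finset (Sym2 V)} {p : V × V} : p ∈ prs A ↔ s(p.1, p.2) ∈ A := by
  unfold prs
  rw [Finset.mem_filter]
  refine ⟨fun h => h.2, fun h => ⟨?_, h⟩⟩
  rw [Finset.mem_product]
  exact ⟨Finset.mem_biUnion.2 ⟨_, h, by simp⟩, Finset.mem_biUnion.2 ⟨_, h, by simp⟩⟩

lemma prs_mono {A B : Finset (Sym2 V)} (h : A ⊆ B) : prs A ⊆ prs B :=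
  fun _ hp => mem_prs.2 (h (mem_prs.1 hp))

/-- Signed component indicator. -/
def ind (U : Finset (Sym2 V)) (a x : V) : ℝ := if (gr U).Reachable a x then 1 else 0

lemma ind_congr_right {U : Finset (Sym2 V)} {a x y : V} (h : (gr U).Reachable x y) :
    ind U a x = ind U a y := by
  have : (gr U).Reachable a x ↔ (gr U).Reachable a y :=
    ⟨fun h' => h'.trans h, fun h' => h'.trans h.symm⟩
  simp [ind, this]

lemma ind_congr_left {U : Finset (Sym2 V)} {a b x : V} (h : (gr U).Reachable a b) :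
    ind U a x = ind U b x := by
  have : (gr U).Reachable a x ↔ (gr U).Reachable b x :=
    ⟨fun h' => h.symm.trans h', fun h' => h.trans h'⟩
  simp [ind, this]

/-- Increment of the signed component indicator. -/
def dd (U : Finset (Sym2 V)) (a b : V) (p : V × V) : ℝ :=
  ind U a p.1 - ind U b p.1 - (ind U a p.2 - ind U b p.2)

lemma tree_identity {T : Finset (Sym2 V)} (hT : (gr T).IsAcyclic) (φ : V → ℝ) {a b : V}
    (hab : (gr T).Reachable a b) :
    ∑ p ∈ prs T, dd (T.erase s(p.1, p.2)) a b p * (φ p.1 - φ p.2) = 4 * (φ a - φ b) := by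
  rw [SimpleGraph.reachable_iff_reflTransGen] at hab
  induction hab with
  | refl => simp [dd]
  | @tail u v _ huv ih =>
    obtain ⟨he, hne⟩ := gr_adj.1 huv
    have key : ∑ p ∈ prs T, dd (T.erase s(p.1, p.2)) u v p * (φ p.1 - φ p.2)
        = 4 * (φ u - φ v) := by
      have hn := not_reach_erase hT he hne
      have hn' : ¬(gr (T.erase s(u, v))).Reachable v u := fun h => hn h.symm
      rw [← Finset.sum_subset (s₁ := {(u, v), (v, u)})]
      · rw [Finset.sum_pair (by simp [hne])]
        have hsw : s(v, u) = s(u, v) := Sym2.eq_swap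
        simp only [hsw, dd, ind, if_neg hn, if_neg hn', SimpleGraph.Reachable.refl, if_true]
        ring
      · intro p hp
        simp only [Finset.mem_insert, Finset.mem_singleton] at hp
        rcases hp with rfl | rfl
        · exact mem_prs.2 he
        · exact mem_prs.2 (Sym2.eq_swap ▸ he)
      · intro p _ hp
        simp only [Finset.mem_insert, Finset.mem_singleton, Prod.ext_iff] at hp
        have hne' : s(u, v) ≠ s(p.1, p.2) := by
          rw [Ne, Sym2.eq_iff]
          tauto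
        have hr : (gr (T.erase s(p.1, p.2))).Reachable u v :=
          reach_mem (Finset.mem_erase.2 ⟨hne', he⟩)
        simp [dd, ind_congr_left hr]
    have hsplit : ∀ p : V × V, dd (T.erase s(p.1, p.2)) a v p =
        dd (T.erase s(p.1, p.2)) a u p + dd (T.erase s(p.1, p.2)) u v p := by
      intro p; unfold dd; ring
    simp only [hsplit, add_mul, Finset.sum_add_distrib, ih, key]
    ring

/-- The (unnormalised) potential of the current from `a` to `b`. -/
def pot (w : Sym2 V → ℝ) (F S : Finset (Sym2 V)) (a b : V) (x : V) : ℝ :=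
  ∑ T ∈ bases F (insert s(a, b) S),
    wt w (T.erase s(a, b)) * (ind (T.erase s(a, b)) a x - ind (T.erase s(a, b)) b x)

lemma erase_sup {S T : Finset (Sym2 V)} {e : Sym2 V} (he : e ∉ S) (h : insert e S ⊆ T) :
    S ⊆ T.erase e := fun f hf =>
  Finset.mem_erase.2 ⟨fun hfe => he (hfe ▸ hf), h (Finset.mem_insert_of_mem hf)⟩

lemma pot_const (w : Sym2 V → ℝ) {F S : Finset (Sym2 V)} {a b x y : V}
    (he : s(a, b) ∉ S) (hxy : s(x, y) ∈ S) : pot w F S a b x = pot w F S a b y := by
  refine Finset.sum_congr rfl fun T hT => ?_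
  have hr : (gr (T.erase s(a, b))).Reachable x y :=
    reach_mem (erase_sup he (mem_bases.1 hT).2 hxy)
  rw [ind_congr_right hr, ind_congr_right hr]

lemma pot_sub (w : Sym2 V → ℝ) {F S : Finset (Sym2 V)} {a b : V} (hne : a ≠ b) :
    pot w F S a b a - pot w F S a b b = 2 * num w F S s(a, b) := by
  unfold pot num
  rw [← Finset.sum_sub_distrib, Finset.mul_sum]
  refine Finset.sum_congr rfl fun T hT => ?_
  obtain ⟨hB, hS⟩ := mem_bases.1 hT
  have hn := not_reach_erase hB.2.1 (hS (Finset.mem_insert_self _ _)) hne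
  have hn' : ¬(gr (T.erase s(a, b))).Reachable b a := fun h => hn h.symm
  simp only [ind, if_neg hn, if_neg hn', SimpleGraph.Reachable.refl, if_true]
  ring

lemma current_law (w : Sym2 V → ℝ) {F S : Finset (Sym2 V)} {a b : V}
    (hd : ∀ f ∈ F, ¬f.IsDiag) (he : s(a, b) ∈ F) (heS : s(a, b) ∉ S)
    (φ : V → ℝ) (hφ : ∀ x y, s(x, y) ∈ S → φ x = φ y) :
    ∑ p ∈ prs (F \ S), w s(p.1, p.2) * (pot w F S a b p.1 - pot w F S a b p.2) * (φ p.1 - φ p.2)
      = 4 * part w F S * (φ a - φ b) := by
  have hne : a ≠ b := by simpa using hd _ he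
  let X : Finset (Σ _ : Finset (Sym2 V), V × V) :=
    (bases F (insert s(a, b) S)).sigma
      (fun T => (prs (F \ S)).filter (fun p => ¬(gr (T.erase s(a, b))).Reachable p.1 p.2))
  let Y : Finset (Σ _ : Finset (Sym2 V), V × V) :=
    (bases F S).sigma
      (fun T => ((prs T).filter (fun p => s(p.1, p.2) ∉ S ∧
        ¬(gr (T.erase s(p.1, p.2))).Reachable a b)))
  let fX : (Σ _ : Finset (Sym2 V), V × V) → ℝ := fun q =>
    w s(q.2.1, q.2.2) * wt w (q.1.erase s(a, b)) * dd (q.1.erase s(a, b)) a b q.2 *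
      (φ q.2.1 - φ q.2.2)
  let fY : (Σ _ : Finset (Sym2 V), V × V) → ℝ := fun q =>
    wt w q.1 * dd (q.1.erase s(q.2.1, q.2.2)) a b q.2 * (φ q.2.1 - φ q.2.2)
  have h1 : ∑ p ∈ prs (F \ S),
      w s(p.1, p.2) * (pot w F S a b p.1 - pot w F S a b p.2) * (φ p.1 - φ p.2)
      = ∑ q ∈ X, fX q := by
    rw [Finset.sum_sigma]
    have : ∀ p : V × V,
        w s(p.1, p.2) * (pot w F S a b p.1 - pot w F S a b p.2) * (φ p.1 - φ p.2) =
        ∑ T ∈ bases F (insert s(a, b) S), fX ⟨T, p⟩ := by
      intro p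
      unfold pot
      rw [← Finset.sum_sub_distrib, Finset.mul_sum, Finset.sum_mul]
      refine Finset.sum_congr rfl fun T _ => ?_
      simp only [fX, dd]
      ring
    simp only [this]
    rw [Finset.sum_comm]
    refine Finset.sum_congr rfl fun T _ => ?_
    rw [Finset.sum_filter_of_ne]
    intro p _ hp hr
    apply hp
    simp [fX, dd, ind_congr_right hr]
  have h2 : ∑ q ∈ Y, fY q = 4 * part w F S * (φ a - φ b) := by
    rw [Finset.sum_sigma]
    unfold part
    rw [Finset.mul_sum, Finset.sum_mul]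
    refine Finset.sum_congr rfl fun T hT => ?_
    obtain ⟨hB, hS⟩ := mem_bases.1 hT
    rw [Finset.sum_filter_of_ne]
    · have := tree_identity hB.2.1 φ (hB.2.2 a b he)
      simp only [fY, mul_assoc, ← Finset.mul_sum, this]
      ring
    · intro p _ hp
      refine ⟨fun hpS => hp ?_, fun hr => hp ?_⟩
      · simp [fY, hφ _ _ hpS]
      · simp [fY, dd, ind_congr_left hr]
  rw [h1, ← h2]
  refine Finset.sum_bij'
    (fun q _ => ⟨insert s(q.2.1, q.2.2) (q.1.erase s(a, b)), q.2⟩)
    (fun q _ => ⟨insert s(a, b) (q.1.erase s(q.2.1, q.2.2)), q.2⟩) ?_ ?_ ?_ ?_ ?_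
  · rintro ⟨T, p⟩ hq
    simp only [X, Finset.mem_sigma, Finset.mem_filter, mem_prs, Finset.mem_sdiff] at hq
    obtain ⟨hT, ⟨hpF, hpS⟩, hn⟩ := hq
    obtain ⟨hB, hS⟩ := mem_bases.1 hT
    have heT : s(a, b) ∈ T := hS (Finset.mem_insert_self _ _)
    have hB' : IsBasis F (insert s(a, b) (T.erase s(a, b))) := by
      rwa [Finset.insert_erase heT]
    have hnot : s(p.1, p.2) ∉ T.erase s(a, b) := fun h => hn (reach_mem h)
    simp only [Y, Finset.mem_sigma, Finset.mem_filter, mem_prs]
    refine ⟨mem_bases.2 ⟨exchange hB' hpF hn,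
      (erase_sup heS hS).trans (Finset.subset_insert _ _)⟩, Finset.mem_insert_self _ _, hpS, ?_⟩
    rw [Finset.erase_insert hnot]
    exact not_reach_erase hB.2.1 heT hne
  · rintro ⟨T, p⟩ hq
    simp only [Y, Finset.mem_sigma, Finset.mem_filter, mem_prs] at hq
    obtain ⟨hT, hpT, hpS, hn⟩ := hq
    obtain ⟨hB, hS⟩ := mem_bases.1 hT
    have hB' : IsBasis F (insert s(p.1, p.2) (T.erase s(p.1, p.2))) := by
      rwa [Finset.insert_erase hpT]
    have hnot : s(a, b) ∉ T.erase s(p.1, p.2) := fun h => hn (reach_mem h)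
    have hpF : s(p.1, p.2) ∈ F := hB.1 hpT
    simp only [X, Finset.mem_sigma, Finset.mem_filter, mem_prs, Finset.mem_sdiff]
    refine ⟨mem_bases.2 ⟨exchange hB' he hn, ?_⟩, ⟨hpF, hpS⟩, ?_⟩
    · exact Finset.insert_subset_insert _
        (fun f hf => Finset.mem_erase.2 ⟨fun h => hpS (h ▸ hf), hS hf⟩)
    · rw [Finset.erase_insert hnot]
      exact not_reach_erase hB.2.1 hpT (by simpa using hd _ hpF)
  · rintro ⟨T, p⟩ hq
    simp only [X, Finset.mem_sigma, Finset.mem_filter] at hq
    have heT : s(a, b) ∈ T := (mem_bases.1 hq.1).2 (Finset.mem_insert_self _ _)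
    have hnot : s(p.1, p.2) ∉ T.erase s(a, b) := fun h => hq.2.2 (reach_mem h)
    simp [Finset.erase_insert hnot, Finset.insert_erase heT]
  · rintro ⟨T, p⟩ hq
    simp only [Y, Finset.mem_sigma, Finset.mem_filter, mem_prs] at hq
    have hnot : s(a, b) ∉ T.erase s(p.1, p.2) := fun h => hq.2.2.2 (reach_mem h)
    simp [Finset.erase_insert hnot, Finset.insert_erase hq.2.1]
  · rintro ⟨T, p⟩ hq
    simp only [X, Finset.mem_sigma, Finset.mem_filter] at hq
    have hnot : s(p.1, p.2) ∉ T.erase s(a, b) := fun h => hq.2.2 (reach_mem h)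
    simp only [fX, fY, Finset.erase_insert hnot]
    unfold wt
    rw [Finset.prod_insert hnot]

/-- Effective resistance, as a ratio of partition functions. -/
def res (w : Sym2 V → ℝ) (F S : Finset (Sym2 V)) (e : Sym2 V) : ℝ :=
  num w F S e / part w F S

lemma wt_pos {w : Sym2 V → ℝ} (hw : ∀ f, 0 < w f) (T : Finset (Sym2 V)) : 0 < wt w T :=
  Finset.prod_pos fun f _ => hw f

lemma part_pos {w : Sym2 V → ℝ} (hw : ∀ f, 0 < w f) {F S : Finset (Sym2 V)} (hSF : S ⊆ F)
    (hS : (gr S).IsAcyclic) (hd : ∀ f ∈ F, ¬f.IsDiag) : 0 < part w F S :=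
  Finset.sum_pos (fun T _ => wt_pos hw T) (bases_nonempty hSF hS hd)

lemma num_nonneg {w : Sym2 V → ℝ} (hw : ∀ f, 0 < w f) (F S : Finset (Sym2 V)) (e : Sym2 V) :
    0 ≤ num w F S e :=
  Finset.sum_nonneg fun _ _ => (wt_pos hw _).le

/-- The Thomson principle in the form of monotonicity of the effective resistance. -/
lemma res_le {w w' : Sym2 V → ℝ} (hw : ∀ f, 0 < w f) (hw' : ∀ f, 0 < w' f)
    {F F' S : Finset (Sym2 V)} (hF : F ⊆ F') (hd : ∀ f ∈ F', ¬f.IsDiag)
    (hSF : S ⊆ F) (hS : (gr S).IsAcyclic) {a b : V} (he : s(a, b) ∈ F) (heS : s(a, b) ∉ S)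
    {r : ℝ} (hr : ∀ f ∈ F, w f ≤ r * w' f) :
    res w' F' S s(a, b) ≤ r * res w F S s(a, b) := by
  have hd' : ∀ f ∈ F, ¬f.IsDiag := fun f hf => hd f (hF hf)
  have hne : a ≠ b := by simpa using hd _ (hF he)
  have hZ := part_pos hw hSF hS hd'
  have hZ' := part_pos hw' (hSF.trans hF) hS hd
  let h := pot w F S a b
  let h' := pot w' F' S a b
  let Z := part w F S
  let Z' := part w' F' S
  let i : V × V → ℝ := fun p =>
    if p ∈ prs (F \ S) then w s(p.1, p.2) * (h p.1 - h p.2) / (2 * Z) else 0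
  let i' : V × V → ℝ := fun p => w' s(p.1, p.2) * (h' p.1 - h' p.2) / (2 * Z')
  let P' := prs (F' \ S)
  have hsub : prs (F \ S) ⊆ P' := prs_mono (Finset.sdiff_subset_sdiff hF le_rfl)
  have flow : ∀ φ : V → ℝ, (∀ x y, s(x, y) ∈ S → φ x = φ y) →
      ∑ p ∈ P', i p * (φ p.1 - φ p.2) = 2 * (φ a - φ b) := by
    intro φ hφ
    rw [← Finset.sum_subset hsub (fun p _ hp => by simp [i, hp])]
    have := current_law w hd' he heS φ hφ
    calc _ = ∑ p ∈ prs (F \ S),
          w s(p.1, p.2) * (h p.1 - h p.2) * (φ p.1 - φ p.2) / (2 * Z) :=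
          Finset.sum_congr rfl fun p hp => by simp only [i, if_pos hp]; ring
      _ = _ := by
          rw [← Finset.sum_div, this]
          simp only [Z]
          field_simp
          ring
  have flow' : ∀ φ : V → ℝ, (∀ x y, s(x, y) ∈ S → φ x = φ y) →
      ∑ p ∈ P', i' p * (φ p.1 - φ p.2) = 2 * (φ a - φ b) := by
    intro φ hφ
    have := current_law w' hd (hF he) heS φ hφ
    calc _ = ∑ p ∈ P',
          w' s(p.1, p.2) * (h' p.1 - h' p.2) * (φ p.1 - φ p.2) / (2 * Z') :=
          Finset.sum_congr rfl fun p _ => by simp only [i']; ring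
      _ = _ := by
          rw [← Finset.sum_div, this]
          simp only [Z']
          field_simp
          ring
  have hc : ∀ x y, s(x, y) ∈ S → h x = h y := fun x y hxy => pot_const w heS hxy
  have hc' : ∀ x y, s(x, y) ∈ S → h' x = h' y := fun x y hxy => pot_const w' heS hxy
  have hnum : h a - h b = 2 * num w F S s(a, b) := pot_sub w hne
  have hnum' : h' a - h' b = 2 * num w' F' S s(a, b) := pot_sub w' hne
  have hR : res w F S s(a, b) = num w F S s(a, b) / Z := rfl
  have hR' : res w' F' S s(a, b) = num w' F' S s(a, b) / Z' := rfl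
  -- mixed product
  have e1 : ∑ p ∈ P', i p * i' p / w' s(p.1, p.2) = 2 * res w' F' S s(a, b) := by
    calc _ = ∑ p ∈ P', i p * (h' p.1 - h' p.2) / (2 * Z') :=
          Finset.sum_congr rfl fun p _ => by
            have := (hw' s(p.1, p.2)).ne'
            simp only [i']
            field_simp
      _ = _ := by
          rw [← Finset.sum_div, flow h' hc', hnum', hR']
          field_simp
  have e2 : ∑ p ∈ P', i' p * i' p / w' s(p.1, p.2) = 2 * res w' F' S s(a, b) := by
    calc _ = ∑ p ∈ P', i' p * (h' p.1 - h' p.2) / (2 * Z') :=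
          Finset.sum_congr rfl fun p _ => by
            have := (hw' s(p.1, p.2)).ne'
            simp only [i']
            field_simp
      _ = _ := by
          rw [← Finset.sum_div, flow' h' hc', hnum', hR']
          field_simp
  have e3 : ∑ p ∈ P', i p * i p / w' s(p.1, p.2) ≤ r * (2 * res w F S s(a, b)) := by
    have : ∑ p ∈ P', i p * (h p.1 - h p.2) / (2 * Z) = 2 * res w F S s(a, b) := by
      rw [← Finset.sum_div, flow h hc, hnum, hR]
      field_simp
    rw [← this, Finset.mul_sum]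
    refine Finset.sum_le_sum fun p _ => ?_
    by_cases hp : p ∈ prs (F \ S)
    · have hf : s(p.1, p.2) ∈ F := (Finset.mem_sdiff.1 (mem_prs.1 hp)).1
      have h1 : i p * (h p.1 - h p.2) / (2 * Z) = i p * i p / w s(p.1, p.2) := by
        have := (hw s(p.1, p.2)).ne'
        simp only [i, if_pos hp]
        field_simp
      rw [h1, ← mul_div_assoc, div_le_div_iff₀ (hw' _) (hw _)]
      nlinarith [mul_self_nonneg (i p), hr _ hf]
    · simp [i, hp]
  have e4 : 0 ≤ ∑ p ∈ P', (i p - i' p) * (i p - i' p) / w' s(p.1, p.2) :=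
    Finset.sum_nonneg fun p _ => div_nonneg (mul_self_nonneg _) (hw' _).le
  have e5 : ∑ p ∈ P', (i p - i' p) * (i p - i' p) / w' s(p.1, p.2) =
      ∑ p ∈ P', i p * i p / w' s(p.1, p.2) - 2 * ∑ p ∈ P', i p * i' p / w' s(p.1, p.2)
        + ∑ p ∈ P', i' p * i' p / w' s(p.1, p.2) := by
    rw [Finset.mul_sum, ← Finset.sum_sub_distrib, ← Finset.sum_add_distrib]
    refine Finset.sum_congr rfl fun p _ => ?_
    ring
  rw [e5, e1, e2] at e4
  linarith

lemma acyclic_empty : (gr (∅ : Finset (Sym2 V))).IsAcyclic := by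
  simp [gr]

/-- Tilted edge marginal on a finite graph. -/
def marg (w : Sym2 V → ℝ) (F : Finset (Sym2 V)) (e : Sym2 V) : ℝ :=
  part w F {e} / part w F ∅

lemma marg_eq (w : Sym2 V → ℝ) (F : Finset (Sym2 V)) (e : Sym2 V) :
    marg w F e = w e * res w F ∅ e := by
  unfold marg res
  rw [← mul_div_assoc, ← part_insert]
  simp

lemma marg_of_notMem (w : Sym2 V → ℝ) {F : Finset (Sym2 V)} {e : Sym2 V} (he : e ∉ F) :
    marg w F e = 0 := by
  have : bases F {e} = ∅ := by
    rw [Finset.eq_empty_iff_forall_notMem]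
    intro T hT
    obtain ⟨hB, hS⟩ := mem_bases.1 hT
    exact he (hB.1 (hS (Finset.mem_singleton_self e)))
  simp [marg, part, this]

lemma marg_nonneg {w : Sym2 V → ℝ} (hw : ∀ f, 0 < w f) (F : Finset (Sym2 V)) (e : Sym2 V) :
    0 ≤ marg w F e :=
  div_nonneg (Finset.sum_nonneg fun _ _ => (wt_pos hw _).le)
    (Finset.sum_nonneg fun _ _ => (wt_pos hw _).le)

lemma marg_le_one {w : Sym2 V → ℝ} (hw : ∀ f, 0 < w f) (F : Finset (Sym2 V)) (e : Sym2 V) :
    marg w F e ≤ 1 :=
  div_le_one_of_le₀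
    (Finset.sum_le_sum_of_subset_of_nonneg
      (fun T hT => mem_bases.2 ⟨(mem_bases.1 hT).1, Finset.empty_subset _⟩)
      (fun _ _ _ => (wt_pos hw _).le))
    (Finset.sum_nonneg fun _ _ => (wt_pos hw _).le)

/-- Sup-norm Lipschitz bound of tilted marginals in the logarithmic weights. -/
lemma marg_lipschitz {F : Finset (Sym2 V)} (hd : ∀ f ∈ F, ¬f.IsDiag) (e : Sym2 V)
    {u u' : Sym2 V → ℝ} {η : ℝ} (hη : ∀ f ∈ F, |u f - u' f| ≤ η) (hη0 : 0 ≤ η) :
    |marg (fun f => Real.exp (u f)) F e - marg (fun f => Real.exp (u' f)) F e| ≤ 2 * η := by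
  by_cases he : e ∈ F
  swap
  · simp [marg_of_notMem _ he, hη0]
  have key : ∀ v v' : Sym2 V → ℝ, (∀ f ∈ F, |v f - v' f| ≤ η) →
      marg (fun f => Real.exp (v f)) F e ≤ marg (fun f => Real.exp (v' f)) F e + 2 * η := by
    intro v v' hvv
    set m := marg (fun f => Real.exp (v f)) F e
    set m' := marg (fun f => Real.exp (v' f)) F e
    induction e using Sym2.inductionOn with
    | hf a b =>
      have hR : res (fun f => Real.exp (v f)) F ∅ s(a, b) ≤
          Real.exp η * res (fun f => Real.exp (v' f)) F ∅ s(a, b) := by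
        refine res_le (fun f => Real.exp_pos _) (fun f => Real.exp_pos _) le_rfl hd
          (Finset.empty_subset _) acyclic_empty he (Finset.notMem_empty _) fun f hf => ?_
        rw [← Real.exp_add]
        exact Real.exp_le_exp.2 (by linarith [(abs_le.1 (hvv f hf)).1])
      have hm : m ≤ Real.exp (2 * η) * m' := by
        simp only [m, m', marg_eq]
        have hv : Real.exp (v s(a, b)) ≤ Real.exp η * Real.exp (v' s(a, b)) := by
          rw [← Real.exp_add]
          exact Real.exp_le_exp.2 (by linarith [(abs_le.1 (hvv _ he)).2])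
        have h0 : 0 ≤ res (fun f => Real.exp (v f)) F ∅ s(a, b) :=
          div_nonneg (num_nonneg (fun f => Real.exp_pos _) _ _ _)
            (Finset.sum_nonneg fun _ _ => (wt_pos (fun f => Real.exp_pos _) _).le)
        calc Real.exp (v s(a, b)) * res (fun f => Real.exp (v f)) F ∅ s(a, b)
            ≤ (Real.exp η * Real.exp (v' s(a, b))) *
              (Real.exp η * res (fun f => Real.exp (v' f)) F ∅ s(a, b)) := by gcongr
          _ = _ := by rw [two_mul, Real.exp_add]; ring
      have hm1 : m ≤ 1 := marg_le_one (fun f => Real.exp_pos _) F _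
      have hm0 : 0 ≤ m := marg_nonneg (fun f => Real.exp_pos _) F _
      have hexp := Real.add_one_le_exp (-(2 * η))
      have hinv : Real.exp (-(2 * η)) * m ≤ m' := by
        have hmul : Real.exp (-(2 * η)) * Real.exp (2 * η) = 1 := by simp [← Real.exp_add]
        calc Real.exp (-(2 * η)) * m
            ≤ Real.exp (-(2 * η)) * (Real.exp (2 * η) * m') := by gcongr
          _ = m' := by rw [← mul_assoc, hmul, one_mul]
      nlinarith
  rw [abs_le]
  constructor
  · linarith [key u' u fun f hf => by rw [abs_sub_comm]; exact hη f hf]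
  · linarith [key u u' hη]

/-- Probability that a uniform maximal forest contains `S`. -/
def prob (F S : Finset (Sym2 V)) : ℝ := part (fun _ => 1) F S / part (fun _ => 1) F ∅

lemma prob_antitone {F F' : Finset (Sym2 V)} (hF : F ⊆ F') (hd : ∀ f ∈ F', ¬f.IsDiag)
    (S : Finset (Sym2 V)) (hSF : S ⊆ F) : prob F' S ≤ prob F S := by
  induction S using Finset.induction_on with
  | empty =>
    have hd' : ∀ f ∈ F, ¬f.IsDiag := fun f hf => hd f (hF hf)
    have h1 := part_pos (w := fun _ => (1:ℝ)) (fun _ => one_pos) (Finset.empty_subset F')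
      acyclic_empty hd
    have h2 := part_pos (w := fun _ => (1:ℝ)) (fun _ => one_pos) (Finset.empty_subset F)
      acyclic_empty hd'
    simp [prob, div_self h1.ne', div_self h2.ne']
  | insert e S heS ih =>
    have hS : S ⊆ F := (Finset.subset_insert _ _).trans hSF
    have he : e ∈ F := hSF (Finset.mem_insert_self _ _)
    have hd' : ∀ f ∈ F, ¬f.IsDiag := fun f hf => hd f (hF hf)
    have nn : ∀ G T : Finset (Sym2 V), 0 ≤ part (fun _ => (1:ℝ)) G T := fun G T =>
      Finset.sum_nonneg fun _ _ => (wt_pos (fun _ => one_pos) _).le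
    by_cases hac : (gr S).IsAcyclic
    · have hZ := part_pos (w := fun _ => (1:ℝ)) (fun _ => one_pos) hS hac hd'
      have hZ' := part_pos (w := fun _ => (1:ℝ)) (fun _ => one_pos) (hS.trans hF) hac hd
      have h1 : ∀ G : Finset (Sym2 V), 0 < part (fun _ => (1:ℝ)) G S →
          prob G (insert e S) = res (fun _ => 1) G S e * prob G S := by
        intro G hG
        unfold prob res
        rw [part_insert, one_mul, ← mul_div_assoc, div_mul_cancel₀ _ hG.ne']
      rw [h1 F hZ, h1 F' hZ']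
      induction e using Sym2.inductionOn with
      | hf a b =>
        have hr := res_le (w := fun _ => (1:ℝ)) (w' := fun _ => (1:ℝ)) (fun _ => one_pos)
          (fun _ => one_pos) hF hd hS hac he heS (r := 1) (fun _ _ => by norm_num)
        have hp : 0 ≤ prob F' S := div_nonneg (nn _ _) (nn _ _)
        have hres : 0 ≤ res (fun _ => (1:ℝ)) F S s(a, b) :=
          div_nonneg (num_nonneg (fun _ => one_pos) _ _ _) (nn _ _)
        exact mul_le_mul (by linarith) (ih hS) hp hres
    · have : bases F' (insert e S) = ∅ := by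
        rw [Finset.eq_empty_iff_forall_notMem]
        intro T hT
        obtain ⟨hB, hT⟩ := mem_bases.1 hT
        exact hac (hB.2.1.anti (gr_mono ((Finset.subset_insert _ _).trans hT)))
      have h0 : prob F' (insert e S) = 0 := by simp [prob, part, this]
      rw [h0]
      exact div_nonneg (nn _ _) (nn _ _)

end P143
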