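import Mathlib
import Vale.Agent.P143.Forest

/-!
Tilted marginals of the free forest, computed intrinsically from balls.
-/

open MeasureTheory Filter

open scoped Classical ENNReal

noncomputable section

namespace P143

variable {V : Type*}

/-- Edges of the graph coded by an adjacency matrix. -/
def isEdge (A : V → V → Bool) (e : Sym2 V) : Prop :=
  Sym2.lift ⟨fun a b => A a b = true ∧ A b a = true ∧ a ≠ b,
    fun a b => propext ⟨fun h => ⟨h.2.1, h.1, h.2.2.symm⟩, fun h => ⟨h.2.1, h.1, h.2.2.symm⟩⟩⟩ e

/-- Vertices within distance `n` of an endpoint of `e`. -/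
def reachN (A : V → V → Bool) (e : Sym2 V) : ℕ → V → Prop
  | 0 => fun v => v ∈ e
  | n + 1 => fun v => reachN A e n v ∨ ∃ c, reachN A e n c ∧ isEdge A s(c, v)

/-- Edges of the ball of radius `n` around `e`. -/
def ballE (A : V → V → Bool) (e : Sym2 V) (n : ℕ) (f : Sym2 V) : Prop :=
  isEdge A f ∧ ∀ v ∈ f, reachN A e n v

/-- Spanning forests of a ball. -/
def okT (A : V → V → Bool) (e : Sym2 V) (n : ℕ) (T : Finset (Sym2 V)) : Prop :=
  (∀ f ∈ T, ballE A e n f) ∧ (gr T).IsAcyclic ∧
    ∀ a b, ballE A e n s(a, b) → (gr T).Reachable a b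

/-- Weight of a forest under a tilt supported in a ball. -/
def wgt (A : V → V → Bool) (e : Sym2 V) (j : ℕ) (y : Sym2 V → ℝ) (T : Finset (Sym2 V)) : ℝ≥0∞ :=
  ENNReal.ofReal (Real.exp (∑ f ∈ T, if ballE A e j f then y f else 0))

/-- Tilted marginal of `e` in the ball of radius `n`. -/
def mBall (A : V → V → Bool) (e : Sym2 V) (j n : ℕ) (y : Sym2 V → ℝ) : ℝ :=
  (∑' T, if okT A e n T ∧ e ∈ T then wgt A e j y T else 0).toReal /
    (∑' T, if okT A e n T then wgt A e j y T else 0).toReal

/-- Tilted marginal of `e` in the free forest. -/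
def mG (A : V → V → Bool) (e : Sym2 V) (y : Sym2 V → ℝ) : ℝ :=
  limsup (fun j => limsup (fun n => mBall A e j n y) atTop) atTop

section Measurable

variable [Countable V]

lemma measurableSet_isEdge (e : Sym2 V) : MeasurableSet {A : V → V → Bool | isEdge A e} := by
  induction e using Sym2.inductionOn with
  | hf a b =>
    have h : ∀ a b : V, MeasurableSet {A : V → V → Bool | A a b = true} := fun a b =>
      ((measurable_pi_apply b).comp (measurable_pi_apply a) :
        Measurable fun A : V → V → Bool => A a b) (MeasurableSet.singleton true)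
    simp only [isEdge, Sym2.lift_mk]
    exact (h a b).inter ((h b a).inter (MeasurableSet.const _))

lemma measurableSet_reachN (e : Sym2 V) (n : ℕ) (v : V) :
    MeasurableSet {A : V → V → Bool | reachN A e n v} := by
  induction n generalizing v with
  | zero => exact MeasurableSet.const _
  | succ n ih =>
    simp only [reachN]
    refine (ih v).union ?_
    show MeasurableSet {A : V → V → Bool | ∃ c, reachN A e n c ∧ isEdge A s(c, v)}
    have : {A : V → V → Bool | ∃ c, reachN A e n c ∧ isEdge A s(c, v)} =
        ⋃ c, {A | reachN A e n c} ∩ {A | isEdge A s(c, v)} := by ext A; simp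
    rw [this]
    exact MeasurableSet.iUnion fun c => (ih c).inter (measurableSet_isEdge _)

lemma measurableSet_ballE (e : Sym2 V) (n : ℕ) (f : Sym2 V) :
    MeasurableSet {A : V → V → Bool | ballE A e n f} := by
  have : {A : V → V → Bool | ballE A e n f} =
      {A | isEdge A f} ∩ ⋂ v, {A | v ∈ f → reachN A e n v} := by
    ext A; simp [ballE]
  rw [this]
  refine (measurableSet_isEdge f).inter (MeasurableSet.iInter fun v => ?_)
  by_cases hv : v ∈ f
  · simpa [hv] using measurableSet_reachN e n v
  · simp [hv]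

lemma measurableSet_okT (e : Sym2 V) (n : ℕ) (T : Finset (Sym2 V)) :
    MeasurableSet {A : V → V → Bool | okT A e n T} := by
  have : {A : V → V → Bool | okT A e n T} =
      (⋂ f ∈ T, {A | ballE A e n f}) ∩ ({_A | (gr T).IsAcyclic} ∩
        ⋂ a, ⋂ b, {A | ballE A e n s(a, b) → (gr T).Reachable a b}) := by
    ext A; simp [okT]
  rw [this]
  refine (MeasurableSet.biInter T.countable_toSet fun f _ => measurableSet_ballE e n f).inter
    ((MeasurableSet.const _).inter (MeasurableSet.iInter fun a => MeasurableSet.iInter fun b => ?_))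
  by_cases hr : (gr T).Reachable a b
  · simp [hr]
  · simpa [hr, Set.compl_def] using (measurableSet_ballE e n s(a, b)).compl

lemma measurable_mBall (e : Sym2 V) (j n : ℕ) :
    Measurable fun p : (V → V → Bool) × (Sym2 V → ℝ) => mBall p.1 e j n p.2 := by
  have hw : ∀ T, Measurable fun p : (V → V → Bool) × (Sym2 V → ℝ) => wgt p.1 e j p.2 T := by
    intro T
    unfold wgt
    refine ENNReal.measurable_ofReal.comp (Real.measurable_exp.comp ?_)
    refine Finset.measurable_sum _ fun f _ => ?_
    exact Measurable.ite (measurable_fst (measurableSet_ballE e j f))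
      ((measurable_pi_apply f).comp measurable_snd) measurable_const
  unfold mBall
  refine (ENNReal.measurable_toReal.comp (Measurable.tsum fun T => ?_)).div
    (ENNReal.measurable_toReal.comp (Measurable.tsum fun T => ?_))
  · by_cases he : e ∈ T
    · simp only [he, and_true]
      exact Measurable.ite (measurable_fst (measurableSet_okT e n T)) (hw T) measurable_const
    · simp [he]
  · exact Measurable.ite (measurable_fst (measurableSet_okT e n T)) (hw T) measurable_const

lemma measurable_mG (e : Sym2 V) :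
    Measurable fun p : (V → V → Bool) × (Sym2 V → ℝ) => mG p.1 e p.2 :=
  Measurable.limsup fun j => Measurable.limsup fun n => measurable_mBall e j n

end Measurable

lemma mG_local (A : V → V → Bool) (e : Sym2 V) {y y' : Sym2 V → ℝ}
    (h : ∀ f, isEdge A f → y f = y' f) : mG A e y = mG A e y' := by
  have : ∀ j T, wgt A e j y T = wgt A e j y' T := by
    intro j T
    unfold wgt
    congr 2
    refine Finset.sum_congr rfl fun f _ => ?_
    split_ifs with hb
    · exact h f hb.1
    · rfl
  simp only [mG, mBall, this]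

section Equiv

variable {V' : Type*} (σ : V ≃ V')

/-- The induced map of unordered pairs. -/
def pairEquiv : Sym2 V ≃ Sym2 V' where
  toFun := Sym2.map σ
  invFun := Sym2.map σ.symm
  left_inv e := by simp [Sym2.map_map]
  right_inv e := by simp [Sym2.map_map]

variable {σ} {A : V → V → Bool} {A' : V' → V' → Bool} (hA : ∀ a b, A' (σ a) (σ b) = A a b)

include hA

lemma isEdge_map (f : Sym2 V) : isEdge A' (Sym2.map σ f) ↔ isEdge A f := by
  induction f using Sym2.inductionOn with
  | hf a b => simp [isEdge, hA]

lemma reachN_map (e : Sym2 V) (n : ℕ) (v : V) :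
    reachN A' (Sym2.map σ e) n (σ v) ↔ reachN A e n v := by
  induction n generalizing v with
  | zero =>
    simp only [reachN, Sym2.mem_map]
    exact ⟨fun ⟨a, ha, h⟩ => σ.injective h ▸ ha, fun h => ⟨v, h, rfl⟩⟩
  | succ n ih =>
    simp only [reachN, ih]
    refine or_congr Iff.rfl ⟨?_, ?_⟩
    · rintro ⟨c, hc, hE⟩
      obtain ⟨d, rfl⟩ := σ.surjective c
      exact ⟨d, (ih d).1 hc, (isEdge_map hA s(d, v)).1 hE⟩
    · rintro ⟨d, hc, hE⟩
      exact ⟨σ d, (ih d).2 hc, (isEdge_map hA s(d, v)).2 hE⟩

lemma ballE_map (e : Sym2 V) (n : ℕ) (f : Sym2 V) :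
    ballE A' (Sym2.map σ e) n (Sym2.map σ f) ↔ ballE A e n f := by
  unfold ballE
  refine and_congr (isEdge_map hA f) ?_
  constructor
  · intro h v hv
    exact (reachN_map hA e n v).1 (h _ (Sym2.mem_map.2 ⟨v, hv, rfl⟩))
  · intro h v hv
    obtain ⟨w, hw, rfl⟩ := Sym2.mem_map.1 hv
    exact (reachN_map hA e n w).2 (h w hw)

omit hA in
/-- Relabelling the vertices of a forest. -/
def grIso (σ : V ≃ V') (T : Finset (Sym2 V)) : gr T ≃g gr (T.map (pairEquiv σ).toEmbedding) where
  toEquiv := σ
  map_rel_iff' := by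
    intro a b
    simp only [gr_adj]
    refine and_congr ?_ σ.injective.ne_iff
    exact Finset.mem_map' (f := (pairEquiv σ).toEmbedding) (a := s(a, b))

lemma okT_map (e : Sym2 V) (n : ℕ) (T : Finset (Sym2 V)) :
    okT A' (Sym2.map σ e) n (T.map (pairEquiv σ).toEmbedding) ↔ okT A e n T := by
  unfold okT
  refine and_congr ?_ (and_congr (grIso σ T).isAcyclic_iff.symm ?_)
  · constructor
    · intro h f hf
      exact (ballE_map hA e n f).1 (h _ (Finset.mem_map_of_mem _ hf))
    · intro h f hf
      obtain ⟨g, hg, rfl⟩ := Finset.mem_map.1 hf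
      exact (ballE_map hA e n g).2 (h g hg)
  · constructor
    · intro h a b hab
      exact (grIso σ T).reachable_iff.1 (h (σ a) (σ b) ((ballE_map hA e n s(a, b)).2 hab))
    · intro h a b hab
      obtain ⟨c, rfl⟩ := σ.surjective a
      obtain ⟨d, rfl⟩ := σ.surjective b
      exact (grIso σ T).reachable_iff.2 (h c d ((ballE_map hA e n s(c, d)).1 hab))

lemma mG_map (e : Sym2 V) (y : Sym2 V' → ℝ) :
    mG A' (Sym2.map σ e) y = mG A e (fun f => y (Sym2.map σ f)) := by
  have hw : ∀ j T, wgt A' (Sym2.map σ e) j y (T.map (pairEquiv σ).toEmbedding) =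
      wgt A e j (fun f => y (Sym2.map σ f)) T := by
    intro j T
    unfold wgt
    rw [Finset.sum_map]
    congr 2
    refine Finset.sum_congr rfl fun f _ => ?_
    exact if_congr (ballE_map hA e j f) rfl rfl
  have hmem : ∀ T : Finset (Sym2 V),
      Sym2.map σ e ∈ T.map (pairEquiv σ).toEmbedding ↔ e ∈ T := fun T => Finset.mem_map' _
  have hb : ∀ j n, mBall A' (Sym2.map σ e) j n y = mBall A e j n (fun f => y (Sym2.map σ f)) := by
    intro j n
    unfold mBall
    rw [← (pairEquiv σ).finsetCongr.tsum_eq (fun T =>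
        if okT A' (Sym2.map σ e) n T ∧ Sym2.map σ e ∈ T then wgt A' (Sym2.map σ e) j y T else 0),
      ← (pairEquiv σ).finsetCongr.tsum_eq (fun T =>
        if okT A' (Sym2.map σ e) n T then wgt A' (Sym2.map σ e) j y T else 0)]
    simp only [Equiv.finsetCongr_apply, okT_map hA, hmem, hw]
  simp only [mG, hb]

end Equiv

end P143
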