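import Mathlib

/-!
Definitions used in the statement: exhaustions, spanning trees, free uniform spanning forest.
-/

open MeasureTheory ProbabilityTheory Filter Topology

namespace P143

variable {V : Type*}

/-- An increasing sequence of finite connected subgraphs with union `G`. -/
def IsExhaustion (G : SimpleGraph V) (H : ℕ → G.Subgraph) : Prop :=
  Monotone H ∧ (∀ n, (H n).verts.Finite) ∧ (∀ n, (H n).Connected) ∧
    (∀ v, ∃ n, v ∈ (H n).verts) ∧ (∀ a b, G.Adj a b → ∃ n, (H n).Adj a b)

/-- The spanning trees of a subgraph `H`, as indicator functions on pairs of vertices. -/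
def spanningTrees {G : SimpleGraph V} (H : G.Subgraph) : Set (Sym2 V → Bool) :=
  {x | {e | x e = true} ⊆ H.edgeSet ∧
    ((SimpleGraph.fromEdgeSet {e | x e = true}).induce H.verts).IsTree}

/-- `μ` is the free uniform spanning forest of `G`: exhaustions exist, and along every one of
them the uniform spanning tree measures converge weakly to `μ`. -/
def IsFreeUSF (G : SimpleGraph V) (μ : Measure (Sym2 V → Bool)) : Prop :=
  IsProbabilityMeasure μ ∧ (∃ H, IsExhaustion G H) ∧
    ∀ H, IsExhaustion G H → ∀ f : C(Sym2 V → Bool, ℝ),
      Tendsto (fun n => ∫ x, f x ∂(uniformOn (spanningTrees (H n)))) atTop (𝓝 (∫ x, f x ∂μ))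

end P143
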