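import Mathlib
import Vale.Agent.P143.Channel
import Vale.Agent.P143.Algorithm

/-!
The law of the sampler.
-/

open MeasureTheory Filter ProbabilityTheory Finset

open scoped Classical

noncomputable section

namespace P143

/-- Densities of independent identical product. -/
lemma pi_withDensity_lam {ι : Type*} [Fintype ι] (f : ι → ℝ → ENNReal)
    (hf : ∀ i, Measurable (f i)) [∀ i, SigmaFinite (lam.withDensity (f i))] :
    Measure.pi (fun i => lam.withDensity (f i)) =
      (Measure.pi fun _ : ι => lam).withDensity (fun z => ∏ i, f i (z i)) := by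
  refine Measure.pi_eq fun s hs => ?_
  rw [withDensity_apply _ (MeasurableSet.univ_pi hs), ← lintegral_indicator (MeasurableSet.univ_pi hs)]
  have h1 : (Set.univ.pi s).indicator (fun z => ∏ i, f i (z i)) =
      fun z : ι → ℝ => ∏ i, (s i).indicator (f i) (z i) := by
    funext z
    by_cases hz : z ∈ Set.univ.pi s
    · rw [Set.indicator_of_mem hz]
      exact Finset.prod_congr rfl fun i _ => (Set.indicator_of_mem (hz i (Set.mem_univ i)) _).symm
    · rw [Set.indicator_of_notMem hz]
      simp only [Set.mem_univ_pi, not_forall] at hz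
      obtain ⟨i, hi⟩ := hz
      exact (Finset.prod_eq_zero (Finset.mem_univ i) (Set.indicator_of_notMem hi _)).symm
  have hind : iIndepFun (fun i (z : ι → ℝ) => (s i).indicator (f i) (z i))
      (Measure.pi fun _ : ι => lam) :=
    iIndepFun_pi fun i => ((hf i).indicator (hs i)).aemeasurable
  rw [h1, lintegral_prod_eq_prod_lintegral_of_indepFun Finset.univ _ hind
    (fun i => ((hf i).indicator (hs i)).comp (measurable_pi_apply i))]
  refine Finset.prod_congr rfl fun i _ => ?_
  rw [← (measurePreserving_eval (fun _ : ι => lam) i).lintegral_comp ((hf i).indicator (hs i)) |>.symm,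
    withDensity_apply _ (hs i), ← lintegral_indicator (hs i)]

variable {E : Type*}

lemma measurableSet_true (f : E) : MeasurableSet {x : E → Bool | x f = true} :=
  (measurable_pi_apply f : Measurable fun x : E → Bool => x f) (MeasurableSet.singleton true)

/-- Exponential tilt of the edge configuration. -/
def tilt (A : Finset E) (y : E → ℝ) (x : E → Bool) : ℝ :=
  Real.exp (∑ f ∈ A, if x f then y f else 0)

/-- Marginal of the tilted measure. -/
def mA (μ : Measure (E → Bool)) (e : E) (A : Finset E) (y : E → ℝ) : ℝ :=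
  (∫ x, (if x e then 1 else 0) * tilt A y x ∂μ) / (∫ x, tilt A y x ∂μ)

@[fun_prop]
lemma measurable_tilt (A : Finset E) (y : E → ℝ) : Measurable (tilt A y) := by
  unfold tilt
  refine Real.measurable_exp.comp (Finset.measurable_sum _ fun f _ => ?_)
  exact Measurable.ite (measurableSet_true f) measurable_const measurable_const

lemma measurable_bit (e : E) : Measurable fun x : E → Bool => if x e then (1:ℝ) else 0 :=
  Measurable.ite (measurableSet_true e) measurable_const measurable_const

lemma tilt_le (A : Finset E) (y : E → ℝ) (x : E → Bool) :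
    tilt A y x ≤ Real.exp (∑ f ∈ A, |y f|) := by
  refine Real.exp_le_exp.2 (Finset.sum_le_sum fun f _ => ?_)
  split_ifs
  · exact le_abs_self _
  · exact abs_nonneg _

lemma integrable_tilt (μ : Measure (E → Bool)) [IsFiniteMeasure μ] (A : Finset E) (y : E → ℝ) :
    Integrable (tilt A y) μ :=
  Integrable.of_bound (measurable_tilt A y).aestronglyMeasurable _
    (Eventually.of_forall fun x => by
      rw [Real.norm_eq_abs, tilt, abs_of_pos (Real.exp_pos _)]; exact tilt_le A y x)

lemma integrable_bit_tilt (μ : Measure (E → Bool)) [IsFiniteMeasure μ] (e : E) (A : Finset E)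
    (y : E → ℝ) : Integrable (fun x => (if x e then 1 else 0) * tilt A y x) μ :=
  (integrable_tilt μ A y).mono ((measurable_bit e).mul (measurable_tilt A y)).aestronglyMeasurable
    (Eventually.of_forall fun x => by split_ifs <;> simp)

lemma integral_tilt_pos (μ : Measure (E → Bool)) [IsProbabilityMeasure μ] (A : Finset E)
    (y : E → ℝ) : 0 < ∫ x, tilt A y x ∂μ := by
  refine integral_exp_pos ?_
  exact integrable_tilt μ A y

lemma mA_nonneg (μ : Measure (E → Bool)) [IsProbabilityMeasure μ] (e : E) (A : Finset E)
    (y : E → ℝ) : 0 ≤ mA μ e A y :=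
  div_nonneg (integral_nonneg fun x => by
    simp only [tilt, Pi.zero_apply]; split_ifs <;> positivity) (integral_tilt_pos μ A y).le

lemma mA_le_one (μ : Measure (E → Bool)) [IsProbabilityMeasure μ] (e : E) (A : Finset E)
    (y : E → ℝ) : mA μ e A y ≤ 1 := by
  refine div_le_one_of_le₀ ?_ (integral_tilt_pos μ A y).le
  refine integral_mono (integrable_bit_tilt μ e A y) (integrable_tilt μ A y) fun x => ?_
  simp only [tilt]; split_ifs <;> simp [Real.exp_nonneg]

lemma mA_congr (μ : Measure (E → Bool)) (e : E) (A : Finset E) {y y' : E → ℝ}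
    (h : ∀ f ∈ A, y f = y' f) : mA μ e A y = mA μ e A y' := by
  have : tilt A y = tilt A y' := by
    funext x
    unfold tilt
    congr 1
    exact Finset.sum_congr rfl fun f hf => by rw [h f hf]
  simp [mA, this]

@[fun_prop]
lemma measurable_mA (μ : Measure (E → Bool)) [SFinite μ] (e : E) (A : Finset E) :
    Measurable (mA μ e A) := by
  have ht : Measurable fun p : (E → ℝ) × (E → Bool) => tilt A p.1 p.2 := by
    unfold tilt
    refine Real.measurable_exp.comp (Finset.measurable_sum _ fun f _ => ?_)
    exact Measurable.ite (measurable_snd (measurableSet_true f))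
      ((measurable_pi_apply f).comp measurable_fst) measurable_const
  unfold mA
  refine Measurable.div ?_ ?_
  · exact (StronglyMeasurable.integral_prod_right' (ν := μ)
      (((measurable_bit e).comp measurable_snd).mul ht).stronglyMeasurable).measurable
  · exact (StronglyMeasurable.integral_prod_right' (ν := μ) ht.stronglyMeasurable).measurable

/-- The sample space: a configuration and the noise. -/
abbrev Om (E : Type*) := (E → Bool) × (E × ℕ → ℝ)

/-- Independent uniform noise. -/
def nz (ι : Type*) : Measure (ι → ℝ) := Measure.infinitePi fun _ => lam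

instance (ι : Type*) : IsProbabilityMeasure (nz ι) := by unfold nz; infer_instance

/-- A noisy observation. -/
def zObs (i : E × ℕ) (ω : Om E) : ℝ := q (bbias (ω.1 i.1)) (ω.2 i)

@[fun_prop]
lemma measurable_zObs (i : E × ℕ) : Measurable (zObs i) := by
  unfold zObs
  have hb : Measurable bbias := measurable_of_countable _
  fun_prop

lemma zObs_mem (i : E × ℕ) (ω : Om E) : zObs i ω ∈ Set.Icc (0:ℝ) 1 :=
  ⟨q_nonneg (abs_bbias_le _) _, q_le_one (abs_bbias_le _) _⟩

/-- Accumulated log-likelihood ratios of the true observations. -/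
def accObs (k : ℕ) (ω : Om E) (e : E) : ℝ := ∑ r ∈ Finset.range k, ell (zObs (e, r) ω)

/-- The external field at index `i`. -/
def arg (w : E × ℕ → ℝ) (i : E × ℕ) (ω : Om E) : E → ℝ :=
  earlier (fun f => w (f, i.2)) (accObs i.2 ω) (fun f => zObs (f, i.2) ω) i.1

/-- The reconstructed noise. -/
def uObs (m : E → (E → ℝ) → ℝ) (w : E × ℕ → ℝ) (i : E × ℕ) (ω : Om E) : ℝ :=
  Fc (bias (m i.1 (arg w i ω))) (zObs i ω)

lemma acc_uObs {m : E → (E → ℝ) → ℝ}
    (hlip : ∀ e η y y', 0 ≤ η → (∀ f, |y f - y' f| ≤ η) → |m e y - m e y'| ≤ 2 * η)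
    (w : E × ℕ → ℝ) (ω : Om E) :
    ∀ k, acc m w (fun i => uObs m w i ω) k = accObs k ω ∧
      obsAlg m w (fun i => uObs m w i ω) k = fun e => zObs (e, k) ω := by
  have hs : ∀ k, acc m w (fun i => uObs m w i ω) k = accObs k ω →
      obsAlg m w (fun i => uObs m w i ω) k = fun e => zObs (e, k) ω := by
    intro k hk
    unfold obsAlg
    rw [hk]
    refine solve_eq_of_fixed hlip (fun e => zObs_mem _ _) ?_
    funext e
    exact q_Fc (abs_bias_le _) (zObs_mem _ _).1 (zObs_mem _ _).2
  intro k
  induction k with
  | zero => exact ⟨by funext e; simp [acc, accObs], hs 0 (by funext e; simp [acc, accObs])⟩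
  | succ k ih =>
    have h : acc m w (fun i => uObs m w i ω) (k + 1) = accObs (k + 1) ω := by
      funext e
      have h2 := congrFun ih.2 e
      simp only [obsAlg] at h2
      simp only [acc, accObs, Finset.sum_range_succ]
      rw [h2, ih.1]
      rfl
    exact ⟨h, hs _ h⟩

/-- The order of revelation. -/
def before (w : E × ℕ → ℝ) (i r : E × ℕ) : Prop := r.2 < i.2 ∨ (r.2 = i.2 ∧ w r < w i)

lemma before_trans {w : E × ℕ → ℝ} {i r t : E × ℕ} (h1 : before w i r) (h2 : before w r t) :
    before w i t := by
  unfold before at *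
  rcases h1 with h | ⟨h, h'⟩ <;> rcases h2 with g | ⟨g, g'⟩
  · exact .inl (g.trans h)
  · exact .inl (g ▸ h)
  · exact .inl (h ▸ g)
  · exact .inr ⟨g.trans h, g'.trans h'⟩

lemma not_before_self (w : E × ℕ → ℝ) (i : E × ℕ) : ¬before w i i := by simp [before]

/-- Observations revealed before `i`. -/
def past (w : E × ℕ → ℝ) (i : E × ℕ) : MeasurableSpace (Om E) :=
  MeasurableSpace.comap (fun ω (r : {r // before w i r}) => zObs r.1 ω) inferInstance

lemma measurable_zObs_past {w : E × ℕ → ℝ} {i r : E × ℕ} (h : before w i r) :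
    Measurable[past w i] (zObs r) := by
  have h1 : Measurable[past w i] (fun ω (r : {r // before w i r}) => zObs r.1 ω) :=
    comap_measurable _
  exact (measurable_pi_apply (⟨r, h⟩ : {r // before w i r})).comp h1

lemma measurable_arg_past (w : E × ℕ → ℝ) (i : E × ℕ) : Measurable[past w i] (arg w i) := by
  refine @measurable_pi_lambda _ _ _ (past w i) _ _ fun f => ?_
  have h1 : Measurable[past w i] fun ω => accObs i.2 ω f :=
    Finset.measurable_sum _ fun r hr =>
      measurable_ell.comp (measurable_zObs_past (.inl (Finset.mem_range.1 hr)))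
  unfold arg earlier
  refine h1.add ?_
  by_cases hw : w (f, i.2) < w (i.1, i.2)
  · simp only [if_pos hw]
    exact measurable_ell.comp (measurable_zObs_past (.inr ⟨rfl, hw⟩))
  · simp only [if_neg hw]
    exact measurable_const

lemma past_le (w : E × ℕ → ℝ) (i : E × ℕ) :
    past w i ≤ (inferInstance : MeasurableSpace (Om E)) :=
  Measurable.comap_le (measurable_pi_lambda _ fun r => measurable_zObs _)

lemma past_mono {w : E × ℕ → ℝ} {i r : E × ℕ} (h : before w i r) : past w r ≤ past w i :=
  Measurable.comap_le (@measurable_pi_lambda _ _ _ (past w i) _ _ fun t =>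
    measurable_zObs_past (before_trans h t.2))

/-- The finitely many observations used at stage `j`. -/
def stage (B : E → ℕ → Finset E) (w : E × ℕ → ℝ) (i : E × ℕ) (j : ℕ) : Finset (E × ℕ) :=
  (B i.1 j ×ˢ Finset.range (i.2 + 1)).filter (before w i)

/-- The stage observations. -/
def obsStage (A : Finset (E × ℕ)) (ω : Om E) : A → ℝ := fun r => zObs r.1 ω

@[fun_prop]
lemma measurable_obsStage (A : Finset (E × ℕ)) : Measurable (obsStage A) :=
  measurable_pi_lambda _ fun r => measurable_zObs _

/-- The field collected from finitely many observations. -/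
def fieldOf (A : Finset (E × ℕ)) (z : A → ℝ) (f : E) : ℝ :=
  ∑ r : A, if r.1.1 = f then ell (z r) else 0

lemma measurable_fieldOf (A : Finset (E × ℕ)) : Measurable (fieldOf A) := by
  refine measurable_pi_lambda _ fun f => Finset.measurable_sum _ fun r _ => ?_
  by_cases h : r.1.1 = f
  · simp only [if_pos h]; fun_prop
  · simp only [if_neg h]; exact measurable_const

lemma fieldOf_eq_arg (B : E → ℕ → Finset E) (w : E × ℕ → ℝ) (i : E × ℕ) (j : ℕ) (ω : Om E)
    {f : E} (hf : f ∈ B i.1 j) :
    fieldOf (stage B w i j) (obsStage (stage B w i j) ω) f = arg w i ω f := by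
  unfold fieldOf obsStage
  rw [← Finset.attach_eq_univ, Finset.sum_attach (stage B w i j)
    (fun r : E × ℕ => if r.1 = f then ell (zObs r ω) else 0), ← Finset.sum_filter]
  have : (stage B w i j).filter (fun r => r.1 = f) =
      ((Finset.range (i.2 + 1)).filter (fun n => before w i (f, n))).map
        ⟨fun n => (f, n), fun a b h => by simpa using h⟩ := by
    ext ⟨g, n⟩
    simp only [stage, Finset.mem_filter, Finset.mem_product, Finset.mem_map,
      Function.Embedding.coeFn_mk, Prod.mk.injEq]
    constructor
    · rintro ⟨⟨⟨hg, hn⟩, hb⟩, rfl⟩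
      exact ⟨n, ⟨hn, hb⟩, rfl⟩
    · rintro ⟨a, ⟨hn, hb⟩, heq⟩
      obtain ⟨rfl, rfl⟩ := Prod.ext_iff.1 heq
      exact ⟨⟨⟨hf, hn⟩, hb⟩, rfl⟩
  rw [this, Finset.sum_map, Finset.sum_filter, Finset.sum_range_succ]
  simp only [Function.Embedding.coeFn_mk, arg, earlier, accObs]
  congr 1
  · refine Finset.sum_congr rfl fun n hn => ?_
    rw [if_pos (show before w i (f, n) from .inl (Finset.mem_range.1 hn))]
    rfl
  · have : before w i (f, i.2) ↔ w (f, i.2) < w (i.1, i.2) := by simp [before]
    simp only [this]
    rfl

/-- Likelihood of finitely many observations. -/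
def like (A : Finset (E × ℕ)) (x : E → Bool) (z : A → ℝ) : ℝ :=
  ∏ r : A, dens (bbias (x r.1.1)) (cl (z r))

lemma dens_cl_bounds (b : Bool) (s : ℝ) :
    0 ≤ dens (bbias b) (cl s) ∧ dens (bbias b) (cl s) ≤ 2 := by
  have := cl_nonneg s; have := cl_le_one s
  cases b <;> simp [dens, bbias] <;> constructor <;> linarith

lemma like_nonneg (A : Finset (E × ℕ)) (x : E → Bool) (z : A → ℝ) : 0 ≤ like A x z :=
  Finset.prod_nonneg fun _ _ => (dens_cl_bounds _ _).1

lemma like_le (A : Finset (E × ℕ)) (x : E → Bool) (z : A → ℝ) :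
    like A x z ≤ ∏ _r : A, (2:ℝ) :=
  Finset.prod_le_prod (fun _ _ => (dens_cl_bounds _ _).1) (fun _ _ => (dens_cl_bounds _ _).2)

lemma measurable_like (A : Finset (E × ℕ)) :
    Measurable fun p : (E → Bool) × (A → ℝ) => like A p.1 p.2 := by
  have hb : Measurable bbias := measurable_of_countable _
  refine Finset.measurable_prod _ fun r _ => ?_
  unfold dens
  fun_prop

lemma like_eq (A : Finset (E × ℕ)) {B : Finset E} (hA : ∀ r ∈ A, r.1 ∈ B) (x : E → Bool)
    (z : A → ℝ) : like A x z = like A (fun _ => false) z * tilt B (fieldOf A z) x := by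
  have h1 : like A x z = like A (fun _ => false) z *
      ∏ r : A, Real.exp (if x r.1.1 then ell (z r) else 0) := by
    unfold like
    rw [← Finset.prod_mul_distrib]
    refine Finset.prod_congr rfl fun r _ => ?_
    rw [dens_bbias (x r.1.1) (cl_nonneg _) (cl_le_one _)]
    have : ell (cl (z r)) = ell (z r) := by
      unfold ell
      rw [cl_of_mem (cl_nonneg _) (cl_le_one _)]
    rw [this]
  rw [h1, tilt, ← Real.exp_sum]
  congr 2
  unfold fieldOf
  have : ∀ f ∈ B, (if x f then ∑ r : A, (if r.1.1 = f then ell (z r) else 0) else 0) =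
      ∑ r : A, if r.1.1 = f then (if x r.1.1 then ell (z r) else 0) else 0 := by
    intro f _
    by_cases hx : x f
    · rw [if_pos hx]
      refine Finset.sum_congr rfl fun r _ => ?_
      by_cases hr : r.1.1 = f
      · simp [hr, hx]
      · simp [hr]
    · rw [if_neg hx]
      refine (Finset.sum_eq_zero fun r _ => ?_).symm
      by_cases hr : r.1.1 = f
      · simp [hr, hx]
      · simp [hr]
  rw [Finset.sum_congr rfl this, Finset.sum_comm]
  refine Finset.sum_congr rfl fun r _ => ?_
  rw [Finset.sum_ite_eq, if_pos (hA r.1 r.2)]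

lemma map_obs_fixed (A : Finset (E × ℕ)) (x : E → Bool) :
    (nz (E × ℕ)).map (fun v => obsStage A (x, v)) =
      (Measure.pi fun _ : A => lam).withDensity (fun z => ENNReal.ofReal (like A x z)) := by
  have h1 : (fun v => obsStage A (x, v)) =
      (fun (s : A → ℝ) (r : A) => q (bbias (x r.1.1)) (s r)) ∘ A.restrict := by
    funext v r; rfl
  have hg : Measurable fun (s : A → ℝ) (r : A) => q (bbias (x r.1.1)) (s r) :=
    measurable_pi_lambda _ fun r => (measurable_q_right _).comp (measurable_pi_apply r)
  rw [h1, ← Measure.map_map hg (Finset.measurable_restrict A), nz,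
    Measure.infinitePi_map_restrict]
  haveI : ∀ r : A, IsProbabilityMeasure (lam.map (q (bbias (x r.1.1)))) :=
    fun r => Measure.isProbabilityMeasure_map (measurable_q_right _).aemeasurable
  rw [Measure.pi_map_pi (μ := fun _ : A => lam) (f := fun r => q (bbias (x r.1.1)))
    (fun r => (measurable_q_right _).aemeasurable)]
  haveI : ∀ r : A, SigmaFinite
      (lam.withDensity fun s => ENNReal.ofReal (dens (bbias (x r.1.1)) s)) := by
    intro r
    rw [← map_q (abs_bbias_le _)]
    infer_instance
  simp only [map_q (abs_bbias_le _)]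
  rw [pi_withDensity_lam _ (fun r => by unfold dens; fun_prop)]
  refine withDensity_congr_ae ?_
  have hae : ∀ r : A, ∀ᵐ z ∂(Measure.pi fun _ : A => lam), z r ∈ Set.Icc (0:ℝ) 1 := fun r =>
    (measurePreserving_eval (fun _ : A => lam) r).quasiMeasurePreserving.ae ae_mem_Icc
  filter_upwards [ae_all_iff.2 hae] with z hz
  rw [like, ENNReal.ofReal_prod_of_nonneg fun r _ => (dens_cl_bounds _ _).1]
  exact Finset.prod_congr rfl fun r _ => by rw [cl_of_mem (hz r).1 (hz r).2]

variable (μ : Measure (E → Bool)) [IsProbabilityMeasure μ]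

/-- The joint law of configuration and noise. -/
def pw : Measure (Om E) := μ.prod (nz (E × ℕ))

instance : IsProbabilityMeasure (pw μ) := by unfold pw; infer_instance

lemma integral_obs (A : Finset (E × ℕ)) {φ : (E → Bool) × (A → ℝ) → ℝ} (hφ : Measurable φ)
    (hb : ∀ p, |φ p| ≤ 1) :
    ∫ ω, φ (ω.1, obsStage A ω) ∂(pw μ) =
      ∫ z, ∫ x, like A x z * φ (x, z) ∂μ ∂(Measure.pi fun _ : A => lam) := by
  have hint : Integrable (fun ω => φ (ω.1, obsStage A ω)) (pw μ) :=
    Integrable.of_bound (hφ.comp (measurable_fst.prodMk (measurable_obsStage A))).aestronglyMeasurable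
      1 (Eventually.of_forall fun ω => hb _)
  have hl := measurable_like A
  rw [pw, integral_prod _ hint]
  have h2 : ∀ x, ∫ v, φ (x, obsStage A (x, v)) ∂(nz (E × ℕ)) =
      ∫ z, like A x z * φ (x, z) ∂(Measure.pi fun _ : A => lam) := by
    intro x
    have hmeas : Measurable fun v => obsStage A ((x, v) : Om E) :=
      (measurable_obsStage A).comp (measurable_const.prodMk measurable_id)
    rw [← integral_map (f := fun z => φ (x, z)) hmeas.aemeasurable
      (hφ.comp (measurable_const.prodMk measurable_id)).aestronglyMeasurable, map_obs_fixed,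
      integral_withDensity_eq_integral_toReal_smul (f := fun z => ENNReal.ofReal (like A x z))
        (ENNReal.measurable_ofReal.comp (hl.comp (measurable_const.prodMk measurable_id)))
        (Eventually.of_forall fun _ => ENNReal.ofReal_lt_top)]
    refine integral_congr_ae (Eventually.of_forall fun z => ?_)
    simp [ENNReal.toReal_ofReal (like_nonneg A x z)]
  simp only [h2]
  refine integral_integral_swap ?_
  refine Integrable.of_bound (hl.mul hφ).aestronglyMeasurable (∏ _r : A, (2:ℝ))
    (Eventually.of_forall fun p => ?_)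
  simp only [Function.uncurry, norm_mul, Real.norm_eq_abs, abs_of_nonneg (like_nonneg A _ _)]
  exact (mul_le_mul (like_le A _ _) (hb _) (abs_nonneg _)
    (Finset.prod_nonneg fun _ _ => zero_le_two)).trans (by simp)

lemma stage_identity (e : E) (A : Finset (E × ℕ)) {B : Finset E} (hA : ∀ r ∈ A, r.1 ∈ B)
    {C : Set (A → ℝ)} (hC : MeasurableSet C) :
    ∫ ω in obsStage A ⁻¹' C, mA μ e B (fieldOf A (obsStage A ω)) ∂(pw μ) =
      ∫ ω in obsStage A ⁻¹' C, (if ω.1 e then (1:ℝ) else 0) ∂(pw μ) := by
  have hS : MeasurableSet (obsStage A ⁻¹' C) := measurable_obsStage A hC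
  rw [← integral_indicator hS, ← integral_indicator hS]
  have hm := (measurable_mA μ e B).comp (measurable_fieldOf A)
  let φ1 : (E → Bool) × (A → ℝ) → ℝ := fun p => C.indicator (fun z => mA μ e B (fieldOf A z)) p.2
  let φ2 : (E → Bool) × (A → ℝ) → ℝ :=
    fun p => C.indicator (fun _ => if p.1 e then (1:ℝ) else 0) p.2
  have hφ1 : Measurable φ1 := (hm.indicator hC).comp measurable_snd
  have hφ2 : Measurable φ2 := by
    simp only [φ2, Set.indicator_apply]
    exact Measurable.ite (measurable_snd hC) ((measurable_bit e).comp measurable_fst)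
      measurable_const
  have b1 : ∀ p, |φ1 p| ≤ 1 := by
    intro p
    simp only [φ1, Set.indicator_apply]
    split_ifs
    · rw [abs_of_nonneg (mA_nonneg μ e B _)]; exact mA_le_one μ e B _
    · simp
  have b2 : ∀ p, |φ2 p| ≤ 1 := by
    intro p
    simp only [φ2, Set.indicator_apply]
    split_ifs <;> simp
  have e1 : (obsStage A ⁻¹' C).indicator (fun ω => mA μ e B (fieldOf A (obsStage A ω))) =
      fun ω => φ1 (ω.1, obsStage A ω) := by
    funext ω; simp [φ1, Set.indicator_apply]
  have e2 : (obsStage A ⁻¹' C).indicator (fun ω : Om E => if ω.1 e then (1:ℝ) else 0) =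
      fun ω => φ2 (ω.1, obsStage A ω) := by
    funext ω; simp [φ2, Set.indicator_apply]
  rw [e1, e2, integral_obs μ A hφ1 b1, integral_obs μ A hφ2 b2]
  refine integral_congr_ae (Eventually.of_forall fun z => ?_)
  by_cases hz : z ∈ C
  · simp only [φ1, φ2, Set.indicator_of_mem hz]
    set y := fieldOf A z
    set c := like A (fun _ => false) z
    have e3 : ∀ x, like A x z = c * tilt B y x := fun x => like_eq A hA x z
    have e4 : ∀ x, like A x z * (if x e then (1:ℝ) else 0) =
        c * ((if x e then (1:ℝ) else 0) * tilt B y x) := fun x => by rw [e3 x]; ring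
    rw [integral_congr_ae (Eventually.of_forall e4), integral_mul_const,
      integral_congr_ae (Eventually.of_forall e3), integral_const_mul, integral_const_mul, mA,
      mul_assoc, mul_div_cancel₀ _ (integral_tilt_pos μ B y).ne']
  · simp [φ1, φ2, Set.indicator_of_notMem hz]

section Main

variable {m : E → (E → ℝ) → ℝ} {B : E → ℕ → Finset E}
  (hmeas : ∀ e, Measurable (m e))
  (hlip : ∀ e η y y', 0 ≤ η → (∀ f, |y f - y' f| ≤ η) → |m e y - m e y'| ≤ 2 * η)
  (hmono : ∀ e, Monotone (B e)) (hcov : ∀ e f, ∃ j, f ∈ B e j)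
  (hlim : ∀ e y, m e y = limsup (fun j => mA μ e (B e j) y) atTop)

/-- The filtration of stage observations. -/
def filt (hmono : ∀ e, Monotone (B e)) (w : E × ℕ → ℝ) (i : E × ℕ) :
    Filtration ℕ (inferInstance : MeasurableSpace (Om E)) where
  seq j := MeasurableSpace.comap (obsStage (stage B w i j)) inferInstance
  mono' := by
    intro j j' hjj
    refine Measurable.comap_le (@measurable_pi_lambda _ _ _
      (MeasurableSpace.comap (obsStage (stage B w i j')) inferInstance) _ _ fun r => ?_)
    have hr : r.1 ∈ stage B w i j' :=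
      Finset.filter_subset_filter _ (Finset.product_subset_product_left (hmono i.1 hjj)) r.2
    have h1 : Measurable[MeasurableSpace.comap (obsStage (stage B w i j')) inferInstance]
        (obsStage (stage B w i j')) := comap_measurable _
    exact (measurable_pi_apply (⟨r.1, hr⟩ : stage B w i j')).comp h1
  le' j := Measurable.comap_le (measurable_obsStage _)

include hcov in
lemma past_le_filt (w : E × ℕ → ℝ) (i : E × ℕ) : past w i ≤ ⨆ j, filt hmono w i j := by
  refine Measurable.comap_le (@measurable_pi_lambda _ _ _ (⨆ j, filt hmono w i j) _ _ fun r => ?_)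
  obtain ⟨j, hj⟩ := hcov i.1 r.1.1
  have hr : r.1 ∈ stage B w i j := by
    refine Finset.mem_filter.2 ⟨Finset.mem_product.2 ⟨hj, Finset.mem_range.2 ?_⟩, r.2⟩
    rcases r.2 with h | ⟨h, -⟩ <;> omega
  have h1 : Measurable[filt hmono w i j] (obsStage (stage B w i j)) := comap_measurable _
  exact ((measurable_pi_apply (⟨r.1, hr⟩ : stage B w i j)).comp h1).mono
    (le_iSup (fun j => (filt hmono w i j : MeasurableSpace (Om E))) j) le_rfl

include hmono hcov hlim in
lemma posterior (w : E × ℕ → ℝ) (i : E × ℕ) :
    (fun ω => m i.1 (arg w i ω)) =ᵐ[pw μ]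
      (pw μ)[fun ω => if ω.1 i.1 then (1:ℝ) else 0 | ⨆ j, filt hmono w i j] := by
  set g : Om E → ℝ := fun ω => if ω.1 i.1 then (1:ℝ) else 0 with hg
  have hgi : Integrable g (pw μ) :=
    Integrable.of_bound ((measurable_bit i.1).comp measurable_fst).aestronglyMeasurable 1
      (Eventually.of_forall fun ω => by simp only [hg]; split_ifs <;> simp)
  have h1 : ∀ j, (fun ω => mA μ i.1 (B i.1 j) (arg w i ω)) =ᵐ[pw μ]
      (pw μ)[g | filt hmono w i j] := by
    intro j
    set A := stage B w i j
    have hA : ∀ r ∈ A, r.1 ∈ B i.1 j := fun r hr =>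
      (Finset.mem_product.1 (Finset.mem_filter.1 hr).1).1
    have heq : (fun ω => mA μ i.1 (B i.1 j) (arg w i ω)) =
        fun ω => mA μ i.1 (B i.1 j) (fieldOf A (obsStage A ω)) :=
      funext fun ω => mA_congr μ _ _ fun f hf => (fieldOf_eq_arg B w i j ω hf).symm
    rw [heq]
    have hm : Measurable fun z => mA μ i.1 (B i.1 j) (fieldOf A z) :=
      (measurable_mA μ _ _).comp (measurable_fieldOf A)
    refine ae_eq_condExp_of_forall_setIntegral_eq ((filt hmono w i).le j) hgi ?_ ?_ ?_
    · intro s _ _
      refine (Integrable.of_bound (hm.comp (measurable_obsStage A)).aestronglyMeasurable 1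
        (Eventually.of_forall fun ω => ?_)).integrableOn
      simp only [Function.comp_apply, Real.norm_eq_abs]
      rw [abs_of_nonneg (mA_nonneg μ _ _ _)]
      exact mA_le_one μ _ _ _
    · rintro s ⟨C, hC, rfl⟩ _
      exact stage_identity μ i.1 A hA hC
    · refine (Measurable.stronglyMeasurable ?_).aestronglyMeasurable
      exact hm.comp (comap_measurable _)
  filter_upwards [ae_all_iff.2 h1,
    tendsto_ae_condExp (μ := pw μ) (ℱ := filt hmono w i) g] with ω ha hb
  rw [hlim]
  exact (hb.congr fun j => (ha j).symm).limsup_eq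

lemma resample (i : E × ℕ) :
    MeasurePreserving (fun p : Om E × ℝ => (p.1.1, Function.update p.1.2 i p.2))
      ((pw μ).prod lam) (pw μ) := by
  have hm : Measurable fun p : (E × ℕ → ℝ) × ℝ => Function.update p.1 i p.2 := by
    refine measurable_pi_lambda _ fun r => ?_
    by_cases h : r = i
    · subst h; simp only [Function.update_self]; exact measurable_snd
    · simp only [Function.update_of_ne h]; fun_prop
  have hu : MeasurePreserving (fun p : (E × ℕ → ℝ) × ℝ => Function.update p.1 i p.2)
      ((nz (E × ℕ)).prod lam) (nz (E × ℕ)) := by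
    refine ⟨hm, Measure.eq_infinitePi _ fun s t ht => ?_⟩
    rw [Measure.map_apply hm (MeasurableSet.pi s.countable_toSet fun r _ => ht r)]
    have e : (fun p : (E × ℕ → ℝ) × ℝ => Function.update p.1 i p.2) ⁻¹' (s : Set (E × ℕ)).pi t =
        ((s.erase i : Finset (E × ℕ)) : Set (E × ℕ)).pi t ×ˢ (if i ∈ s then t i else Set.univ) := by
      ext ⟨v, a⟩
      simp only [Set.mem_preimage, Set.mem_pi, Finset.mem_coe, Set.mem_prod, Finset.mem_erase]
      constructor
      · intro h
        refine ⟨fun r hr => ?_, ?_⟩
        · simpa [Function.update_of_ne hr.1] using h r hr.2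
        · split_ifs with hi
          · simpa using h i hi
          · trivial
      · rintro ⟨h1, h2⟩ r hr
        by_cases hri : r = i
        · subst hri; rw [if_pos hr] at h2; simpa using h2
        · simpa [Function.update_of_ne hri] using h1 r ⟨hri, hr⟩
    rw [e, Measure.prod_prod, nz, Measure.infinitePi_pi _ fun r _ => ht r]
    by_cases hi : i ∈ s
    · rw [if_pos hi, Finset.prod_erase_mul _ _ hi]
    · rw [if_neg hi, measure_univ, mul_one, Finset.erase_eq_of_notMem hi]
  exact ((MeasurePreserving.id μ).prod hu).comp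
    (measurePreserving_prodAssoc μ (nz (E × ℕ)) lam)

include hmeas hlim hmono hcov in
lemma one_step (w : E × ℕ → ℝ) (i : E × ℕ) {s : Set (Om E)} (hs : MeasurableSet[past w i] s)
    {C : Set ℝ} (hC : MeasurableSet C) :
    pw μ (s ∩ uObs m w i ⁻¹' C) = pw μ s * lam C := by
  have hs0 : MeasurableSet s := past_le w i s hs
  have harg : Measurable (arg w i) := (measurable_arg_past w i).mono (past_le w i) le_rfl
  have hU : Measurable (uObs m w i) :=
    measurable_Fc.comp ((measurable_bias.comp ((hmeas i.1).comp harg)).prodMk (measurable_zObs i))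
  let κ : Bool → ℝ → ℝ := fun b a => (lam {t | Fc (bias a) (q (bbias b) t) ∈ C}).toReal
  have hκset : ∀ b, MeasurableSet {p : ℝ × ℝ | Fc (bias p.1) (q (bbias b) p.2) ∈ C} := fun b =>
    (measurable_Fc.comp ((measurable_bias.comp measurable_fst).prodMk
      ((measurable_q_right _).comp measurable_snd))) hC
  have hκm : ∀ b, Measurable (κ b) := fun b =>
    ENNReal.measurable_toReal.comp (measurable_measure_prodMk_left (hκset b))
  have hκ0 : ∀ b a, 0 ≤ κ b a := fun b a => ENNReal.toReal_nonneg
  have hκ1 : ∀ b a, κ b a ≤ 1 := fun b a => ENNReal.toReal_le_of_le_ofReal zero_le_one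
    (by simpa using prob_le_one)
  -- invariance under resampling
  have hinv : ∀ (ω : Om E) (t : ℝ) (r : E × ℕ), before w i r →
      zObs r (ω.1, Function.update ω.2 i t) = zObs r ω := by
    intro ω t r hr
    have : r ≠ i := fun h => not_before_self w i (h ▸ hr)
    simp [zObs, Function.update_of_ne this]
  have hinvs : ∀ (ω : Om E) (t : ℝ), ((ω.1, Function.update ω.2 i t) ∈ s ↔ ω ∈ s) := by
    intro ω t
    obtain ⟨C', -, rfl⟩ := hs
    simp only [Set.mem_preimage]
    rw [funext fun r : {r // before w i r} => hinv ω t r.1 r.2]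
  have hinva : ∀ (ω : Om E) (t : ℝ), arg w i (ω.1, Function.update ω.2 i t) = arg w i ω := by
    intro ω t
    funext f
    simp only [arg, earlier, accObs]
    congr 1
    · refine Finset.sum_congr rfl fun r hr => ?_
      rw [hinv ω t _ (.inl (Finset.mem_range.1 hr))]
    · by_cases hw : w (f, i.2) < w (i.1, i.2)
      · rw [if_pos hw, if_pos hw, hinv ω t (f, i.2) (.inr ⟨rfl, hw⟩)]
      · rw [if_neg hw, if_neg hw]
  have hfun : ∀ ω : Om E, (s.indicator (fun ω => κ (ω.1 i.1) (m i.1 (arg w i ω))) ω) =
      (lam {t | (ω.1, Function.update ω.2 i t) ∈ s ∩ uObs m w i ⁻¹' C}).toReal := by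
    intro ω
    by_cases hω : ω ∈ s
    · rw [Set.indicator_of_mem hω]
      simp only [κ, Set.mem_inter_iff, hinvs ω, hω, true_and, Set.mem_preimage, uObs, hinva ω,
        zObs, Function.update_self]
    · simp [Set.indicator_of_notMem hω, Set.mem_inter_iff, hinvs ω, hω]
  have hLHS : (pw μ (s ∩ uObs m w i ⁻¹' C)).toReal =
      ∫ ω, s.indicator (fun ω => κ (ω.1 i.1) (m i.1 (arg w i ω))) ω ∂(pw μ) := by
    have hset : MeasurableSet (s ∩ uObs m w i ⁻¹' C) := hs0.inter (hU hC)
    conv_lhs => rw [← (resample μ i).map_eq]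
    have hpre := (resample μ i).measurable hset
    rw [Measure.map_apply (resample μ i).measurable hset, Measure.prod_apply hpre,
      ← integral_toReal (measurable_measure_prodMk_left hpre).aemeasurable
        (Eventually.of_forall fun ω => measure_lt_top _ _)]
    exact integral_congr_ae (Eventually.of_forall fun ω => (hfun ω).symm)
  -- replace the hidden bit by its posterior mean
  have hpost := posterior μ hmono hcov hlim w i
  have hGle : (⨆ j, (filt hmono w i j : MeasurableSpace (Om E))) ≤
      (inferInstance : MeasurableSpace (Om E)) := iSup_le fun j => (filt hmono w i).le j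
  have hsG : MeasurableSet[(⨆ j, (filt hmono w i j : MeasurableSpace (Om E)))] s := past_le_filt hmono hcov w i s hs
  have hargG : Measurable[(⨆ j, (filt hmono w i j : MeasurableSpace (Om E)))] (arg w i) :=
    (measurable_arg_past w i).mono (past_le_filt hmono hcov w i) le_rfl
  set g : Om E → ℝ := fun ω => if ω.1 i.1 then (1:ℝ) else 0 with hg
  set M : Om E → ℝ := fun ω => m i.1 (arg w i ω) with hMdef
  set hh : Om E → ℝ := s.indicator (fun ω => κ true (M ω) - κ false (M ω)) with hhh
  have hMG : Measurable[(⨆ j, (filt hmono w i j : MeasurableSpace (Om E)))] M := (hmeas i.1).comp hargG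
  have hhG : Measurable[(⨆ j, (filt hmono w i j : MeasurableSpace (Om E)))] hh :=
    (((hκm true).comp hMG).sub ((hκm false).comp hMG)).indicator hsG
  have hh1 : ∀ ω, |hh ω| ≤ 1 := by
    intro ω
    simp only [hhh, Set.indicator_apply]
    split_ifs
    · have := hκ0 true (M ω); have := hκ1 true (M ω); have := hκ0 false (M ω)
      have := hκ1 false (M ω)
      rw [abs_le]; constructor <;> linarith
    · simp
  have hgi : Integrable g (pw μ) :=
    Integrable.of_bound ((measurable_bit i.1).comp measurable_fst).aestronglyMeasurable 1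
      (Eventually.of_forall fun ω => by simp only [hg]; split_ifs <;> simp)
  have hhgi : Integrable (hh * g) (pw μ) :=
    Integrable.of_bound ((hhG.mono hGle le_rfl).mul
      ((measurable_bit i.1).comp measurable_fst)).aestronglyMeasurable 1
      (Eventually.of_forall fun ω => by
        simp only [Pi.mul_apply, hg, Real.norm_eq_abs]; split_ifs <;> simp [hh1 ω])
  have hswap : ∫ ω, hh ω * g ω ∂(pw μ) = ∫ ω, hh ω * M ω ∂(pw μ) := by
    have h1 := condExp_mul_of_stronglyMeasurable_left hhG.stronglyMeasurable hhgi hgi
    calc ∫ ω, hh ω * g ω ∂(pw μ) = ∫ ω, ((pw μ)[hh * g | (⨆ j, (filt hmono w i j : MeasurableSpace (Om E)))]) ω ∂(pw μ) :=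
          (integral_condExp hGle).symm
      _ = _ := integral_congr_ae (by
          filter_upwards [h1, hpost] with ω a b
          simp only [Pi.mul_apply] at a
          rw [a, ← b])
  have hM01 : ∀ ω, cl (M ω) = M ω := by
    intro ω
    have hb0 : ∀ j, 0 ≤ mA μ i.1 (B i.1 j) (arg w i ω) := fun j => mA_nonneg μ _ _ _
    have hb1 : ∀ j, mA μ i.1 (B i.1 j) (arg w i ω) ≤ 1 := fun j => mA_le_one μ _ _ _
    have bb : IsBoundedUnder (· ≤ ·) atTop fun j => mA μ i.1 (B i.1 j) (arg w i ω) :=
      isBoundedUnder_of ⟨1, hb1⟩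
    refine cl_of_mem ?_ ?_
    · simp only [hMdef, hlim]
      exact le_limsup_of_frequently_le (Frequently.of_forall hb0) bb
    · simp only [hMdef, hlim]
      exact limsup_le_of_le (isBoundedUnder_of ⟨0, hb0⟩).isCoboundedUnder_le
        (Eventually.of_forall hb1)
  have hres : ∫ ω, s.indicator (fun ω => κ (ω.1 i.1) (M ω)) ω ∂(pw μ) =
      (pw μ).real s * (lam C).toReal := by
    have hsplit : ∀ ω, s.indicator (fun ω => κ (ω.1 i.1) (M ω)) ω =
        hh ω * g ω + s.indicator (fun ω => κ false (M ω)) ω := by
      intro ω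
      simp only [hhh, hg, Set.indicator_apply]
      by_cases hω : ω ∈ s <;> cases ω.1 i.1 <;> simp [hω]
    have hc : ∀ ω, hh ω * M ω + s.indicator (fun ω => κ false (M ω)) ω =
        s.indicator (fun _ => (lam C).toReal) ω := by
      intro ω
      simp only [hhh, Set.indicator_apply]
      by_cases hω : ω ∈ s
      · simp only [if_pos hω]
        have h1 := cl_nonneg (M ω)
        have h2 : 0 ≤ 1 - cl (M ω) := by linarith [cl_le_one (M ω)]
        have := congrArg ENNReal.toReal (mix_uniform (M ω) hC)
        rw [ENNReal.toReal_add (ENNReal.mul_ne_top ENNReal.ofReal_ne_top (measure_ne_top _ _))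
          (ENNReal.mul_ne_top ENNReal.ofReal_ne_top (measure_ne_top _ _)),
          ENNReal.toReal_mul, ENNReal.toReal_mul, ENNReal.toReal_ofReal h1,
          ENNReal.toReal_ofReal h2, hM01] at this
        rw [← this]
        simp only [κ]
        ring
      · simp [hω]
    have hMm : Measurable M := hMG.mono hGle le_rfl
    have hrest : Integrable (s.indicator (fun ω => κ false (M ω))) (pw μ) :=
      (Integrable.of_bound ((hκm false).comp hMm).aestronglyMeasurable 1
        (Eventually.of_forall fun ω => by
          simp only [Function.comp_apply, Real.norm_eq_abs, abs_of_nonneg (hκ0 _ _)]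
          exact hκ1 _ _)).indicator hs0
    have hhM : Integrable (fun ω => hh ω * M ω) (pw μ) :=
      Integrable.of_bound ((hhG.mono hGle le_rfl).mul hMm).aestronglyMeasurable 1
        (Eventually.of_forall fun ω => by
          have := hM01 ω; have := cl_nonneg (M ω); have := cl_le_one (M ω); have := hh1 ω
          rw [Real.norm_eq_abs, abs_mul, abs_of_nonneg (a := M ω) (by linarith)]
          exact mul_le_one₀ (hh1 ω) (by linarith) (by linarith))
    have hrw : ∫ ω, s.indicator (fun ω => κ (ω.1 i.1) (M ω)) ω ∂(pw μ) =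
        ∫ ω, (hh ω * g ω + s.indicator (fun ω => κ false (M ω)) ω) ∂(pw μ) :=
      integral_congr_ae (Eventually.of_forall hsplit)
    have hhgi' : Integrable (fun ω => hh ω * g ω) (pw μ) := hhgi
    rw [hrw, integral_add hhgi' hrest, hswap, ← integral_add hhM hrest,
      integral_congr_ae (Eventually.of_forall hc), integral_indicator_const _ hs0, smul_eq_mul]
  rw [← ENNReal.toReal_eq_toReal_iff' (measure_ne_top _ _)
    (ENNReal.mul_ne_top (measure_ne_top _ _) (measure_ne_top _ _)), hLHS, ENNReal.toReal_mul]
  exact hres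

include hmeas hlim hmono hcov in
lemma map_uObs (w : E × ℕ → ℝ) (hw : ∀ k, Function.Injective fun e => w (e, k)) :
    (pw μ).map (fun ω i => uObs m w i ω) = nz (E × ℕ) := by
  have hU : ∀ i, Measurable (uObs m w i) := fun i =>
    measurable_Fc.comp ((measurable_bias.comp ((hmeas i.1).comp
      ((measurable_arg_past w i).mono (past_le w i) le_rfl))).prodMk (measurable_zObs i))
  refine Measure.eq_infinitePi _ fun s t ht => ?_
  rw [Measure.map_apply (measurable_pi_lambda _ hU)
    (MeasurableSet.pi s.countable_toSet fun r _ => ht r)]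
  induction s using Finset.strongInduction with
  | H s ih =>
    rcases s.eq_empty_or_nonempty with rfl | hne
    · simp
    · obtain ⟨i, hi, hmax⟩ := s.exists_max_image (fun r => toLex (r.2, w r)) hne
      have hb : ∀ r ∈ s.erase i, before w i r := by
        intro r hr
        obtain ⟨hne', hrs⟩ := Finset.mem_erase.1 hr
        have := Prod.Lex.toLex_le_toLex.1 (hmax r hrs)
        rcases this with h | ⟨h, h'⟩
        · exact .inl h
        · refine .inr ⟨h, lt_of_le_of_ne h' fun heq => hne' ?_⟩
          simp only at h heq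
          have h2 : (fun e => w (e, i.2)) r.1 = (fun e => w (e, i.2)) i.1 := by
            simp only [← h]
            rw [show (r.1, r.2) = r from rfl, heq]
            rw [h]
          exact Prod.ext (hw _ h2) h
      have hsplit : (fun ω j => uObs m w j ω) ⁻¹' (s : Set (E × ℕ)).pi t =
          (fun ω j => uObs m w j ω) ⁻¹' ((s.erase i : Finset (E × ℕ)) : Set (E × ℕ)).pi t ∩
            uObs m w i ⁻¹' t i := by
        ext ω
        simp only [Set.mem_preimage, Set.mem_pi, Finset.mem_coe, Set.mem_inter_iff,
          Finset.mem_erase]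
        constructor
        · exact fun h => ⟨fun r hr => h r hr.2, h i hi⟩
        · rintro ⟨h1, h2⟩ r hr
          by_cases hri : r = i
          · exact hri ▸ h2
          · exact h1 r ⟨hri, hr⟩
      have hmeasset : MeasurableSet[past w i]
          ((fun ω j => uObs m w j ω) ⁻¹' ((s.erase i : Finset (E × ℕ)) : Set (E × ℕ)).pi t) := by
        have e : (fun ω j => uObs m w j ω) ⁻¹' ((s.erase i : Finset (E × ℕ)) : Set (E × ℕ)).pi t =
            ⋂ r ∈ ((s.erase i : Finset (E × ℕ)) : Set (E × ℕ)), uObs m w r ⁻¹' t r := by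
          ext ω; simp [Set.mem_pi]
        rw [e]
        refine MeasurableSet.biInter (Finset.countable_toSet _) fun r hr => ?_
        have hr' := hb r (Finset.mem_coe.1 hr)
        have : Measurable[past w i] (uObs m w r) :=
          measurable_Fc.comp ((measurable_bias.comp ((hmeas r.1).comp
            ((measurable_arg_past w r).mono (past_mono hr') le_rfl))).prodMk
              (measurable_zObs_past hr'))
        exact this (ht r)
      rw [hsplit, one_step μ hmeas hmono hcov hlim w i hmeasset (ht i),
        ih _ (Finset.erase_ssubset hi), Finset.prod_erase_mul _ _ hi]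

lemma decode_ae [Countable E] :
    ∀ᵐ ω ∂(pw μ), ∀ e, decode (fun k => zObs (e, k) ω) = ω.1 e := by
  rw [ae_all_iff]
  intro e
  have key : ∀ b : Bool, ∀ᵐ v ∂(nz (E × ℕ)), decode (fun k => q (bbias b) (v (e, k))) = b := by
    intro b
    let X : ℕ → (E × ℕ → ℝ) → ℝ := fun k v => 2 * q (bbias b) (v (e, k)) - 1
    have hXm : ∀ k, Measurable (X k) := fun k => by simp only [X]; fun_prop
    have hfm : Measurable fun s => 2 * q (bbias b) s - 1 := by fun_prop
    have hmap : ∀ k, (nz (E × ℕ)).map (X k) = lam.map (fun s => 2 * q (bbias b) s - 1) := by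
      intro k
      rw [← (measurePreserving_eval_infinitePi (fun _ : E × ℕ => lam) (e, k)).map_eq,
        Measure.map_map hfm (measurable_pi_apply _)]
      rfl
    have hint : Integrable (X 0) (nz (E × ℕ)) :=
      Integrable.of_bound (hXm 0).aestronglyMeasurable 1 (Eventually.of_forall fun v => by
        have := q_nonneg (abs_bbias_le b) (v (e, 0))
        have := q_le_one (abs_bbias_le b) (v (e, 0))
        rw [Real.norm_eq_abs, abs_le]
        constructor <;> simp only [X] <;> linarith)
    have hind : iIndepFun (fun (r : E × ℕ) (v : E × ℕ → ℝ) => 2 * q (bbias b) (v r) - 1)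
        (nz (E × ℕ)) := iIndepFun_infinitePi fun _ => hfm
    have hlaw := strong_law_ae_real X hint
      (fun j k hjk => hind.indepFun (i := (e, j)) (j := (e, k)) (by simp [hjk]))
      (fun k => ⟨(hXm k).aemeasurable, (hXm 0).aemeasurable, by rw [hmap, hmap]⟩)
    have hmean : ∫ v, X 0 v ∂(nz (E × ℕ)) = bbias b / 3 := by
      rw [← integral_q b]
      have := (measurePreserving_eval_infinitePi (fun _ : E × ℕ => lam) (e, 0)).map_eq
      conv_rhs => rw [← this]
      rw [integral_map (measurable_pi_apply _).aemeasurable hfm.aestronglyMeasurable]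
      rfl
    filter_upwards [hlaw] with v hv
    rw [hmean] at hv
    unfold decode
    rw [hv.limsup_eq]
    cases b <;> norm_num [bbias]
  have hmset : MeasurableSet {ω : Om E | decode (fun k => zObs (e, k) ω) = ω.1 e} :=
    measurableSet_eq_fun (measurable_decode.comp (measurable_pi_lambda _ fun k => measurable_zObs _))
      ((measurable_pi_apply e).comp measurable_fst)
  unfold pw
  rw [Measure.ae_prod_iff_ae_ae hmset]
  exact Eventually.of_forall fun x => key (x e)

lemma ae_injective [Countable E] :
    ∀ᵐ w ∂(nz (E × ℕ)), ∀ k, Function.Injective fun e => w (e, k) := by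
  have hpair : ∀ r r' : E × ℕ, r ≠ r' →
      ∀ᵐ w ∂(nz (E × ℕ)), w r ≠ w r' := by
    intro r r' hne
    have hi : iIndepFun (fun (r : E × ℕ) (w : E × ℕ → ℝ) => w r) (nz (E × ℕ)) :=
      iIndepFun_infinitePi (X := fun _ (s : ℝ) => s) fun _ => measurable_id
    have hmm := (indepFun_iff_map_prod_eq_prod_map_map (measurable_pi_apply r).aemeasurable
      (measurable_pi_apply r').aemeasurable).1 (hi.indepFun hne)
    have hd : MeasurableSet {p : ℝ × ℝ | p.1 = p.2} :=
      measurableSet_eq_fun measurable_fst measurable_snd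
    have e1 : (nz (E × ℕ)).map (fun w => w r) = lam :=
      (measurePreserving_eval_infinitePi (fun _ : E × ℕ => lam) r).map_eq
    have e2 : (nz (E × ℕ)).map (fun w => w r') = lam :=
      (measurePreserving_eval_infinitePi (fun _ : E × ℕ => lam) r').map_eq
    rw [e1, e2] at hmm
    have h0 : (lam.prod lam) {p : ℝ × ℝ | p.1 = p.2} = 0 := by
      rw [Measure.measure_prod_null hd]
      refine Eventually.of_forall fun a => ?_
      simp only [Pi.zero_apply]
      have : Prod.mk a ⁻¹' {p : ℝ × ℝ | p.1 = p.2} = {a} := by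
        ext b; simp [eq_comm]
      rw [this, lam, Measure.restrict_apply (measurableSet_singleton a)]
      exact measure_mono_null Set.inter_subset_left Real.volume_singleton
    rw [← hmm, Measure.map_apply ((measurable_pi_apply r).prodMk (measurable_pi_apply r')) hd] at h0
    rw [ae_iff]
    refine Eq.trans ?_ h0
    congr 1
    ext w; simp
  have hall : ∀ᵐ w ∂(nz (E × ℕ)), ∀ r r' : E × ℕ, r ≠ r' → w r ≠ w r' := by
    rw [ae_all_iff]; intro r
    rw [ae_all_iff]; intro r'
    by_cases h : r = r'
    · exact Eventually.of_forall fun w h' => absurd h h'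
    · filter_upwards [hpair r r' h] with w hw _ using hw
  filter_upwards [hall] with w hw k a b hab
  by_contra hne
  exact hw (a, k) (b, k) (by simp [hne]) hab

attribute [local irreducible] obsAlg solve decode acc in
include hmeas hlip hlim hmono hcov in
/-- The sampler has law `μ`. -/
theorem map_sample [Countable E] :
    ((nz (E × ℕ)).prod (nz (E × ℕ))).map (fun p => sample m p.1 p.2) = μ := by
  have hm' : ∀ e, Measurable fun p : Unit × (E → ℝ) => m e p.2 := fun e =>
    (hmeas e).comp measurable_snd
  have hjoint : Measurable fun p : (E × ℕ → ℝ) × (E × ℕ → ℝ) => sample m p.1 p.2 :=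
    measurable_sample (m := fun (_ : Unit) => m) hm' (a := fun _ => ()) measurable_const
      measurable_fst measurable_snd
  have hw : ∀ᵐ w ∂(nz (E × ℕ)), (nz (E × ℕ)).map (fun u => sample m w u) = μ := by
    filter_upwards [ae_injective] with w hw
    have hU : Measurable fun ω i => uObs m w i ω := measurable_pi_lambda _ fun i =>
      measurable_Fc.comp ((measurable_bias.comp ((hmeas i.1).comp
        ((measurable_arg_past w i).mono (past_le w i) le_rfl))).prodMk (measurable_zObs i))
    conv_lhs => rw [← map_uObs μ hmeas hmono hcov hlim w hw]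
    have hsm : Measurable fun u => sample m w u :=
      hjoint.comp (measurable_prodMk_left (x := w))
    rw [Measure.map_map hsm hU]
    have hae : ((fun u => sample m w u) ∘ fun ω i => uObs m w i ω) =ᵐ[pw μ] Prod.fst := by
      filter_upwards [decode_ae μ] with ω hω
      funext e
      simp only [Function.comp_apply, sample]
      simp only [(acc_uObs hlip w ω _).2]
      exact hω e
    rw [Measure.map_congr hae, pw]
    exact measurePreserving_fst.map_eq
  ext S hS
  rw [Measure.map_apply hjoint hS, Measure.prod_apply (hjoint hS)]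
  calc _ = ∫⁻ _, μ S ∂(nz (E × ℕ)) := by
        refine lintegral_congr_ae ?_
        filter_upwards [hw] with w hw
        have hsm : Measurable fun u => sample m w u :=
          hjoint.comp (measurable_prodMk_left (x := w))
        rw [← hw, Measure.map_apply hsm hS]
        rfl
    _ = μ S := by simp

end Main

end P143
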