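import Mathlib
import Vale.Agent.P143.Forest
import Vale.Agent.P143.Ball
import Vale.Agent.P143.Law

/-!
Existence of the free forest and its consistency with the intrinsic marginals.
-/

open MeasureTheory Filter Topology ProbabilityTheory

open scoped Classical ENNReal BoundedContinuousFunction

noncomputable section

namespace P143

variable {V : Type*}

/-- Indicator configuration of an edge set. -/
def conf (T : Finset (Sym2 V)) : Sym2 V → Bool := fun e => decide (e ∈ T)

lemma conf_injective : Function.Injective (conf (V := V)) := by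
  intro S T h
  ext e
  simpa [conf] using congrFun h e

/-- Uniform measure on maximal forests of a finite graph. -/
def uni (F : Finset (Sym2 V)) : Measure (Sym2 V → Bool) :=
  uniformOn ((bases F ∅).image conf : Set (Sym2 V → Bool))

lemma acyclic_empty' : (gr (∅ : Finset (Sym2 V))).IsAcyclic := acyclic_empty

section

variable [Countable V] {F : Finset (Sym2 V)} (hd : ∀ f ∈ F, ¬f.IsDiag)

include hd

lemma isProbability_uni : IsProbabilityMeasure (uni F) :=
  uniformOn_isProbabilityMeasure (Finset.finite_toSet _)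
    (by simpa using bases_nonempty (Finset.empty_subset F) acyclic_empty hd)

lemma integral_uni (φ : (Sym2 V → Bool) → ℝ) :
    ∫ x, φ x ∂(uni F) = (∑ T ∈ bases F ∅, φ (conf T)) / (bases F ∅).card := by
  have hne := bases_nonempty (Finset.empty_subset F) acyclic_empty hd
  set s := (bases F ∅).image conf with hs
  have hcard : s.card = (bases F ∅).card := Finset.card_image_of_injective _ conf_injective
  have hms : MeasurableSet (s : Set (Sym2 V → Bool)) := s.measurableSet
  have hint : IntegrableOn φ (s : Set (Sym2 V → Bool)) Measure.count := by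
    rw [show (s : Set (Sym2 V → Bool)) = ⋃ x ∈ s, {x} by ext x; simp, integrableOn_finset_iUnion]
    intro x _
    simp [integrableOn_singleton_iff]
  unfold uni uniformOn ProbabilityTheory.cond
  rw [integral_smul_measure, integral_finset _ hint]
  simp only [Measure.count_apply_finset, hcard, ENNReal.toReal_inv, ENNReal.toReal_natCast,
    Measure.real, Measure.count_singleton, ENNReal.toReal_one, one_smul, smul_eq_mul, hs,
    Finset.sum_image conf_injective.injOn]
  rw [← hs, hcard, inv_mul_eq_div]
  simp only [one_mul]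

end

/-- Indicator of an increasing cylinder. -/
def cylC (S : Finset (Sym2 V)) : C(Sym2 V → Bool, ℝ) :=
  ⟨fun x => ∏ f ∈ S, if x f then 1 else 0, continuous_finsetProd _ fun f _ =>
    (continuous_of_discreteTopology (f := fun b : Bool => if b then (1:ℝ) else 0)).comp
      (continuous_apply f)⟩

lemma cylC_eq (S : Finset (Sym2 V)) (x : Sym2 V → Bool) :
    cylC S x = if ∀ f ∈ S, x f = true then 1 else 0 := by
  simp only [cylC, ContinuousMap.coe_mk]
  exact Finset.prod_boole

/-- The bit at `e`. -/
def bitC (e : Sym2 V) : C(Sym2 V → Bool, ℝ) :=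
  ⟨fun x => if x e then 1 else 0,
    (continuous_of_discreteTopology (f := fun b : Bool => if b then (1:ℝ) else 0)).comp
      (continuous_apply e)⟩

/-- The tilt as a continuous function. -/
def tiltC (B : Finset (Sym2 V)) (y : Sym2 V → ℝ) : C(Sym2 V → Bool, ℝ) :=
  ⟨tilt B y, by
    unfold tilt
    exact Real.continuous_exp.comp (continuous_finsetSum _ fun f _ =>
      (continuous_of_discreteTopology (f := fun b : Bool => if b then y f else 0)).comp
        (continuous_apply f))⟩

/-- A monotone sequence of finite edge sets exhausting the edges of `G`. -/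
structure Cover (G : SimpleGraph V) (F : ℕ → Finset (Sym2 V)) : Prop where
  mono : Monotone F
  subset : ∀ n, ∀ f ∈ F n, f ∈ G.edgeSet
  covers : ∀ f ∈ G.edgeSet, ∃ n, f ∈ F n

lemma Cover.notDiag {G : SimpleGraph V} {F : ℕ → Finset (Sym2 V)} (h : Cover G F) (n : ℕ) :
    ∀ f ∈ F n, ¬f.IsDiag := fun f hf => G.not_isDiag_of_mem_edgeSet (h.subset n f hf)

lemma Cover.eventually_subset {G : SimpleGraph V} {F : ℕ → Finset (Sym2 V)} (h : Cover G F)
    (S : Finset (Sym2 V)) (hS : ∀ f ∈ S, f ∈ G.edgeSet) : ∀ᶠ n in atTop, S ⊆ F n := by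
  have h1 : ∀ f ∈ S, ∀ᶠ n in atTop, f ∈ F n := fun f hf => by
    obtain ⟨m, hm⟩ := h.covers f (hS f hf)
    exact eventually_atTop.2 ⟨m, fun n hn => h.mono hn hm⟩
  exact (S.eventually_all.2 h1).mono fun n hn f hf => hn f hf

lemma part_one (F S : Finset (Sym2 V)) :
    part (fun _ => (1:ℝ)) F S = ((bases F S).card : ℝ) := by
  simp [part, wt]

lemma bases_filter (F S : Finset (Sym2 V)) :
    bases F S = (bases F ∅).filter (fun T => S ⊆ T) := by
  ext T
  simp [mem_bases]

section

variable [Countable V]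

lemma integral_cyl {F : Finset (Sym2 V)} (hd : ∀ f ∈ F, ¬f.IsDiag) (S : Finset (Sym2 V)) :
    ∫ x, cylC S x ∂(uni F) = prob F S := by
  rw [integral_uni hd, prob, part_one, part_one, bases_filter F S]
  congr 1
  have : ∀ T ∈ bases F ∅, cylC S (conf T) = if S ⊆ T then 1 else 0 := fun T _ => by
    rw [cylC_eq]; simp [conf, Finset.subset_iff]
  rw [Finset.sum_congr rfl this, Finset.sum_boole]

lemma measure_ext_cyl {μ ν : Measure (Sym2 V → Bool)} [IsProbabilityMeasure μ]
    [IsProbabilityMeasure ν] (h : ∀ S, ∫ x, cylC S x ∂μ = ∫ x, cylC S x ∂ν) : μ = ν := by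
  let C : Finset (Sym2 V) → Set (Sym2 V → Bool) := fun S => {x | ∀ f ∈ S, x f = true}
  have hC : ∀ S, MeasurableSet (C S) := fun S => by
    have : C S = ⋂ f ∈ S, {x | x f = true} := by ext x; simp [C]
    rw [this]
    exact MeasurableSet.biInter S.countable_toSet fun f _ => measurableSet_true f
  have hval : ∀ (κ : Measure (Sym2 V → Bool)) [IsProbabilityMeasure κ] S,
      ∫ x, cylC S x ∂κ = κ.real (C S) := by
    intro κ _ S
    have : (fun x => cylC S x) = (C S).indicator (fun _ => (1:ℝ)) := by
      funext x; rw [cylC_eq]; simp [Set.indicator_apply, C]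
    rw [this, integral_indicator_const _ (hC S), smul_eq_mul, mul_one]
  refine ext_of_generate_finite (Set.range C) ?_ ?_ ?_ (by simp)
  · refine le_antisymm ?_ (MeasurableSpace.generateFrom_le ?_)
    · refine iSup_le fun e => ?_
      refine Measurable.comap_le (@measurable_to_bool _ (MeasurableSpace.generateFrom (Set.range C))
        (fun x : Sym2 V → Bool => x e) ?_)
      refine MeasurableSpace.measurableSet_generateFrom ⟨{e}, ?_⟩
      ext x; simp [C]
    · rintro _ ⟨S, rfl⟩; exact hC S
  · rintro _ ⟨S, rfl⟩ _ ⟨T, rfl⟩ _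
    exact ⟨S ∪ T, by ext x; simp [C, or_imp, forall_and]⟩
  · rintro _ ⟨S, rfl⟩
    have := h S
    rw [hval μ S, hval ν S] at this
    exact (ENNReal.toReal_eq_toReal_iff' (measure_ne_top _ _) (measure_ne_top _ _)).1 this

variable (G : SimpleGraph V)

theorem exists_fusf : ∃ μ : Measure (Sym2 V → Bool), IsProbabilityMeasure μ ∧
    ∀ F, Cover G F → ∀ φ : C(Sym2 V → Bool, ℝ),
      Tendsto (fun n => ∫ x, φ x ∂(uni (F n))) atTop (𝓝 (∫ x, φ x ∂μ)) := by
  letI : Encodable (Sym2 V) := Encodable.ofCountable _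
  have hfin : ∀ n, {e : Sym2 V | e ∈ G.edgeSet ∧ Encodable.encode e < n}.Finite := fun n =>
    ((Set.finite_Iio n).preimage Encodable.encode_injective.injOn).subset fun e he => he.2
  let R : ℕ → Finset (Sym2 V) := fun n => (hfin n).toFinset
  have hR : Cover G R :=
    { mono := fun a b hab f hf => by
        simp only [R, Set.Finite.mem_toFinset] at hf ⊢
        exact ⟨hf.1, hf.2.trans_le hab⟩
      subset := fun n f hf => by
        simp only [R, Set.Finite.mem_toFinset] at hf
        exact hf.1
      covers := fun f hf => ⟨Encodable.encode f + 1, by simp [R, hf]⟩ }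
  let P : (F : ℕ → Finset (Sym2 V)) → Cover G F → ℕ → ProbabilityMeasure (Sym2 V → Bool) :=
    fun F hF n => ⟨uni (F n), isProbability_uni (hF.notDiag n)⟩
  -- cylinder limits along the reference sequence
  have hz : ∀ F, Cover G F → ∀ S : Finset (Sym2 V), (∃ f ∈ S, f ∉ G.edgeSet) →
      ∀ n, prob (F n) S = 0 := by
    intro F hF S hS n
    obtain ⟨f, hfS, hfG⟩ := hS
    have : bases (F n) S = ∅ := by
      rw [Finset.eq_empty_iff_forall_notMem]
      intro T hT
      obtain ⟨hB, hST⟩ := mem_bases.1 hT
      exact hfG (hF.subset n f (hB.1 (hST hfS)))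
    simp [prob, part, this]
  have hnn : ∀ F S : Finset (Sym2 V), 0 ≤ prob F S := fun F S => by
    simp only [prob, part_one]; positivity
  have hL : ∀ S, ∃ L, Tendsto (fun n => prob (R n) S) atTop (𝓝 L) := by
    intro S
    by_cases hS : ∀ f ∈ S, f ∈ G.edgeSet
    · obtain ⟨m, hm⟩ := eventually_atTop.1 (hR.eventually_subset S hS)
      have hanti : Antitone fun n => prob (R (n + m)) S := fun a b hab =>
        prob_antitone (hR.mono (by omega)) (hR.notDiag _) S (hm _ (by omega))
      refine ⟨_, (tendsto_add_atTop_iff_nat m).1 (tendsto_atTop_ciInf hanti ⟨0, ?_⟩)⟩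
      rintro _ ⟨n, rfl⟩
      exact hnn _ _
    · push Not at hS
      exact ⟨0, by simp only [hz R hR S hS]; exact tendsto_const_nhds⟩
  choose L hL using hL
  have hgen : ∀ F, Cover G F → ∀ S, Tendsto (fun n => prob (F n) S) atTop (𝓝 (L S)) := by
    intro F hF S
    by_cases hS : ∀ f ∈ S, f ∈ G.edgeSet
    swap
    · push Not at hS
      have : L S = 0 := tendsto_nhds_unique (hL S) (by simp only [hz R hR S hS]; exact tendsto_const_nhds)
      simp only [hz F hF S hS, this]
      exact tendsto_const_nhds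
    rw [tendsto_order]
    constructor
    · intro a ha
      obtain ⟨m, hm⟩ := eventually_atTop.1 (hF.eventually_subset S hS)
      refine eventually_atTop.2 ⟨m, fun n hn => lt_of_lt_of_le ha ?_⟩
      refine le_of_tendsto (hL S) ?_
      filter_upwards [hR.eventually_subset (F n) (hF.subset n)] with k hk
      exact prob_antitone hk (hR.notDiag k) S (hm n hn)
    · intro a ha
      obtain ⟨k, hk1, hk2⟩ := ((hR.eventually_subset S hS).and
        ((hL S).eventually_lt_const ha)).exists
      filter_upwards [hF.eventually_subset (R k) (hR.subset k)] with n hn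
      exact lt_of_le_of_lt (prob_antitone hn (hF.notDiag n) S hk1) hk2
  let φb : C(Sym2 V → Bool, ℝ) → ((Sym2 V → Bool) →ᵇ ℝ) := fun φ =>
    BoundedContinuousFunction.mkOfCompact φ
  have hclu : ∀ (F : ℕ → Finset (Sym2 V)) (hF : Cover G F) (ν : ProbabilityMeasure (Sym2 V → Bool)),
      ClusterPt ν (Filter.map (P F hF) atTop) →
      ∀ S, ∫ x, cylC S x ∂(ν : Measure (Sym2 V → Bool)) = L S := by
    intro F hF ν hν S
    have hc := ProbabilityMeasure.continuous_integral_boundedContinuousFunction
      (X := Sym2 V → Bool) (φb (cylC S))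
    have h1 : MapClusterPt ν atTop (P F hF) := hν
    have h2 := h1.continuousAt_comp hc.continuousAt
    have h3 : Tendsto ((fun ν : ProbabilityMeasure (Sym2 V → Bool) =>
        ∫ x, φb (cylC S) x ∂(ν : Measure (Sym2 V → Bool))) ∘ P F hF) atTop (𝓝 (L S)) := by
      refine (hgen F hF S).congr fun n => ?_
      exact (integral_cyl (hF.notDiag n) S).symm
    exact eq_of_nhds_neBot (h2.clusterPt.mono h3)
  obtain ⟨μ, hμ⟩ := exists_clusterPt_of_compactSpace (Filter.map (P R hR) atTop)
  refine ⟨μ, inferInstance, fun F hF φ => ?_⟩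
  have htend : Tendsto (P F hF) atTop (𝓝 μ) := by
    refine le_nhds_of_unique_clusterPt fun ν hν => ?_
    refine ProbabilityMeasure.toMeasure_injective (measure_ext_cyl fun S => ?_)
    rw [hclu F hF ν hν S, hclu R hR μ hμ S]
  exact (ProbabilityMeasure.tendsto_iff_forall_integral_tendsto.1 htend) (φb φ)

end

/-- The adjacency matrix of a graph. -/
def CodesGraph (A : V → V → Bool) (G : SimpleGraph V) : Prop :=
  ∀ a b, A a b = true ↔ G.Adj a b

section Balls

variable {A : V → V → Bool} {G : SimpleGraph V} (hA : CodesGraph A G) (hfin : ∀ v, (G.neighborSet v).Finite)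

include hA

lemma isEdge_iff (f : Sym2 V) : isEdge A f ↔ f ∈ G.edgeSet := by
  induction f using Sym2.inductionOn with
  | hf a b =>
    simp only [isEdge, Sym2.lift_mk, SimpleGraph.mem_edgeSet, hA a b, hA b a]
    exact ⟨fun h => h.1, fun h => ⟨h, h.symm, h.ne⟩⟩

include hfin in
lemma finite_reachN (e : Sym2 V) (n : ℕ) : {v | reachN A e n v}.Finite := by
  induction n with
  | zero =>
    refine e.toFinset.finite_toSet.subset fun v hv => ?_
    exact Sym2.mem_toFinset.2 hv
  | succ n ih =>
    refine (ih.union (ih.biUnion fun c _ => hfin c)).subset fun v hv => ?_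
    rcases hv with h | ⟨c, hc, he⟩
    · exact .inl h
    · exact .inr (Set.mem_biUnion hc ((SimpleGraph.mem_edgeSet _).1 ((isEdge_iff hA _).1 he)))

include hfin in
lemma finite_ballE (e : Sym2 V) (n : ℕ) : {f | ballE A e n f}.Finite := by
  have h := finite_reachN hA hfin e n
  refine (h.toFinset.sym2.finite_toSet).subset fun f hf => ?_
  simp only [Finset.mem_coe, Finset.mem_sym2_iff, Set.Finite.mem_toFinset]
  exact fun v hv => hf.2 v hv

/-- The edges of a ball, as a finset. -/
def ballF (hA : CodesGraph A G) (hfin : ∀ v, (G.neighborSet v).Finite) (e : Sym2 V) (n : ℕ) :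
    Finset (Sym2 V) :=
  (finite_ballE hA hfin e n).toFinset

omit hA in
lemma reachN_mono (e : Sym2 V) (v : V) : Monotone fun n => reachN A e n v :=
  monotone_nat_of_le_succ fun _ h => Or.inl h

lemma cover_ballF (hc : G.Connected) (e : Sym2 V) :
    Cover G (ballF hA hfin e) := by
  refine ⟨fun a b hab f hf => ?_, fun n f hf => ?_, fun f hf => ?_⟩
  · simp only [ballF, Set.Finite.mem_toFinset] at hf ⊢
    exact ⟨hf.1, fun v hv => reachN_mono e v hab (hf.2 v hv)⟩
  · simp only [ballF, Set.Finite.mem_toFinset] at hf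
    exact (isEdge_iff hA f).1 hf.1
  · have hall : ∀ v, ∃ n, reachN A e n v := by
      intro v
      obtain ⟨a, ha⟩ : ∃ a, a ∈ e := ⟨e.out.1, Sym2.out_fst_mem e⟩
      have hr := hc a v
      rw [SimpleGraph.reachable_iff_reflTransGen] at hr
      induction hr with
      | refl => exact ⟨0, ha⟩
      | tail _ hs ih =>
        obtain ⟨n, hn⟩ := ih
        exact ⟨n + 1, .inr ⟨_, hn, (isEdge_iff hA _).2 hs⟩⟩
    induction f using Sym2.inductionOn with
    | hf a b =>
      obtain ⟨n, hn⟩ := hall a
      obtain ⟨k, hk⟩ := hall b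
      refine ⟨max n k, ?_⟩
      simp only [ballF, Set.Finite.mem_toFinset]
      refine ⟨(isEdge_iff hA _).2 hf, fun v hv => ?_⟩
      rcases Sym2.mem_iff.1 hv with rfl | rfl
      · exact reachN_mono e v (le_max_left n k) hn
      · exact reachN_mono e v (le_max_right n k) hk

lemma okT_iff (e : Sym2 V) (n : ℕ) (T : Finset (Sym2 V)) :
    okT A e n T ↔ T ∈ bases (ballF hA hfin e n) ∅ := by
  simp [mem_bases, IsBasis, okT, ballF, Finset.subset_iff]

lemma mBall_eq (e : Sym2 V) (j n : ℕ) (y : Sym2 V → ℝ) :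
    mBall A e j n y =
      marg (fun f => Real.exp (if ballE A e j f then y f else 0)) (ballF hA hfin e n) e := by
  have h1 : ∀ p : Finset (Sym2 V) → Prop,
      (∑' T, if okT A e n T ∧ p T then wgt A e j y T else 0).toReal =
        ∑ T ∈ (bases (ballF hA hfin e n) ∅).filter p,
          wt (fun f => Real.exp (if ballE A e j f then y f else 0)) T := by
    intro p
    rw [tsum_eq_sum (s := (bases (ballF hA hfin e n) ∅).filter p)]
    · rw [ENNReal.toReal_sum fun T hT => ?_]
      · refine Finset.sum_congr rfl fun T hT => ?_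
        obtain ⟨hT, hp⟩ := Finset.mem_filter.1 hT
        rw [if_pos ⟨(okT_iff hA hfin e n T).2 hT, hp⟩, wgt,
          ENNReal.toReal_ofReal (Real.exp_nonneg _), wt, ← Real.exp_sum]
      · obtain ⟨hT, hp⟩ := Finset.mem_filter.1 hT
        rw [if_pos ⟨(okT_iff hA hfin e n T).2 hT, hp⟩, wgt]
        exact ENNReal.ofReal_ne_top
    · intro T hT
      rw [if_neg]
      rintro ⟨hok, hp⟩
      exact hT (Finset.mem_filter.2 ⟨(okT_iff hA hfin e n T).1 hok, hp⟩)
  have h2 := h1 (fun _ => True)
  simp only [and_true, Finset.filter_true] at h2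
  unfold mBall marg part
  rw [h2]
  congr 1
  refine Eq.trans ?_ ((h1 (fun T => e ∈ T)).trans (Finset.sum_congr ?_ fun _ _ => rfl))
  · congr 1
    refine tsum_congr fun T => ?_
    split_ifs <;> rfl
  · ext T
    simp [mem_bases]

end Balls

lemma abs_limsup_sub {a b : ℕ → ℝ} (ha : ∀ n, a n ∈ Set.Icc (0:ℝ) 1)
    (hb : ∀ n, b n ∈ Set.Icc (0:ℝ) 1) {c : ℝ} (h : ∀ n, |a n - b n| ≤ c) :
    |limsup a atTop - limsup b atTop| ≤ c := by
  have key : ∀ u v : ℕ → ℝ, (∀ n, u n ∈ Set.Icc (0:ℝ) 1) → (∀ n, v n ∈ Set.Icc (0:ℝ) 1) →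
      (∀ n, u n ≤ v n + c) → limsup u atTop ≤ limsup v atTop + c := by
    intro u v hu hv huv
    have hbu : IsBoundedUnder (· ≤ ·) atTop v := isBoundedUnder_of ⟨1, fun n => (hv n).2⟩
    have hbl : IsBoundedUnder (· ≥ ·) atTop v := isBoundedUnder_of ⟨0, fun n => (hv n).1⟩
    rw [← limsup_add_const atTop v c hbu hbl.isCoboundedUnder_le]
    refine limsup_le_limsup (Eventually.of_forall huv)
      (isBoundedUnder_of ⟨0, fun n => (hu n).1⟩ : IsBoundedUnder (· ≥ ·) atTop u).isCoboundedUnder_le
      (isBoundedUnder_of ⟨1 + c, fun n => by linarith [(hv n).2]⟩)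
  rw [abs_le]
  constructor
  · linarith [key b a hb ha fun n => by linarith [(abs_le.1 (h n)).1]]
  · linarith [key a b ha hb fun n => by linarith [(abs_le.1 (h n)).2]]

lemma limsup_mem_Icc {a : ℕ → ℝ} (ha : ∀ n, a n ∈ Set.Icc (0:ℝ) 1) :
    limsup a atTop ∈ Set.Icc (0:ℝ) 1 :=
  ⟨le_limsup_of_frequently_le (Frequently.of_forall fun n => (ha n).1)
      (isBoundedUnder_of ⟨1, fun n => (ha n).2⟩),
    limsup_le_of_le (isBoundedUnder_of ⟨0, fun n => (ha n).1⟩ :
      IsBoundedUnder (· ≥ ·) atTop a).isCoboundedUnder_le (Eventually.of_forall fun n => (ha n).2)⟩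

section Main

variable {A : V → V → Bool} {G : SimpleGraph V} (hA : CodesGraph A G)
  (hfin : ∀ v, (G.neighborSet v).Finite)

include hA hfin

lemma mG_lipschitz (e : Sym2 V) (η : ℝ) (y y' : Sym2 V → ℝ) (hη : 0 ≤ η)
    (h : ∀ f, |y f - y' f| ≤ η) : |mG A e y - mG A e y'| ≤ 2 * η := by
  have hd : ∀ n, ∀ f ∈ ballF hA hfin e n, ¬f.IsDiag := fun n f hf => by
    simp only [ballF, Set.Finite.mem_toFinset] at hf
    exact G.not_isDiag_of_mem_edgeSet ((isEdge_iff hA f).1 hf.1)
  have hb : ∀ j n z, mBall A e j n z ∈ Set.Icc (0:ℝ) 1 := fun j n z => by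
    rw [mBall_eq hA hfin]
    exact ⟨marg_nonneg (fun f => Real.exp_pos _) _ _, marg_le_one (fun f => Real.exp_pos _) _ _⟩
  refine abs_limsup_sub (fun j => limsup_mem_Icc fun n => hb j n y)
    (fun j => limsup_mem_Icc fun n => hb j n y') fun j =>
      abs_limsup_sub (fun n => hb j n y) (fun n => hb j n y') fun n => ?_
  rw [mBall_eq hA hfin, mBall_eq hA hfin]
  refine marg_lipschitz (hd n) e (fun f _ => ?_) hη
  split_ifs
  · exact h f
  · simpa using hη

variable [Countable V]

lemma mA_uni (e : Sym2 V) (j n : ℕ) (y : Sym2 V → ℝ) :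
    mA (uni (ballF hA hfin e n)) e (ballF hA hfin e j) y = mBall A e j n y := by
  have hd : ∀ f ∈ ballF hA hfin e n, ¬f.IsDiag := fun f hf => by
    simp only [ballF, Set.Finite.mem_toFinset] at hf
    exact G.not_isDiag_of_mem_edgeSet ((isEdge_iff hA f).1 hf.1)
  have hcard : ((bases (ballF hA hfin e n) ∅).card : ℝ) ≠ 0 :=
    Nat.cast_ne_zero.2 (Finset.card_pos.2
      (bases_nonempty (Finset.empty_subset _) acyclic_empty hd)).ne'
  have ht : ∀ T, tilt (ballF hA hfin e j) y (conf T) =
      wt (fun f => Real.exp (if ballE A e j f then y f else 0)) T := by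
    intro T
    rw [tilt, wt, ← Real.exp_sum, ← Finset.sum_filter, ← Finset.sum_filter]
    congr 1
    refine Finset.sum_congr ?_ fun _ _ => rfl
    ext f
    simp [conf, ballF, and_comm]
  rw [mBall_eq hA hfin, mA, integral_uni hd, integral_uni hd, div_div_div_cancel_right₀ hcard,
    marg, part, part, bases_filter _ {e}, Finset.sum_filter]
  congr 1
  · refine Finset.sum_congr rfl fun T _ => ?_
    rw [ht]
    simp [conf]
  · exact Finset.sum_congr rfl fun T _ => ht T

theorem fusf_sample (hc : G.Connected) :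
    ∃ μ : Measure (Sym2 V → Bool), IsProbabilityMeasure μ ∧
      (∀ F, Cover G F → ∀ φ : C(Sym2 V → Bool, ℝ),
        Tendsto (fun n => ∫ x, φ x ∂(uni (F n))) atTop (𝓝 (∫ x, φ x ∂μ))) ∧
      (∀ᵐ x ∂μ, ∀ f, f ∉ G.edgeSet → x f = false) ∧
      ((nz (Sym2 V × ℕ)).prod (nz (Sym2 V × ℕ))).map (fun p => sample (mG A) p.1 p.2) = μ := by
  obtain ⟨μ, hμp, hμ⟩ := exists_fusf G
  letI : Encodable (Sym2 V) := Encodable.ofCountable _
  have hsupp : ∀ᵐ x ∂μ, ∀ f, f ∉ G.edgeSet → x f = false := by
    rw [ae_all_iff]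
    intro f
    by_cases hf : f ∈ G.edgeSet
    · exact Eventually.of_forall fun x h => absurd hf h
    · obtain ⟨a, ha⟩ : ∃ a, a ∈ f := ⟨f.out.1, Sym2.out_fst_mem f⟩
      have hcov := cover_ballF hA hfin hc f
      have h0 : ∀ n, ∫ x, bitC f x ∂(uni (ballF hA hfin f n)) = 0 := by
        intro n
        rw [integral_uni (hcov.notDiag n)]
        refine div_eq_zero_iff.2 (Or.inl (Finset.sum_eq_zero fun T hT => ?_))
        have : f ∉ T := fun h => hf (hcov.subset n f ((mem_bases.1 hT).1.1 h))
        simp [bitC, conf, this]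
      have h1 : ∫ x, bitC f x ∂μ = 0 :=
        tendsto_nhds_unique (hμ _ hcov (bitC f)) (by simp only [h0]; exact tendsto_const_nhds)
      have h2 : Integrable (fun x => bitC f x) μ :=
        Integrable.of_bound (bitC f).continuous.measurable.aestronglyMeasurable 1
          (Eventually.of_forall fun x => by simp only [bitC, ContinuousMap.coe_mk]; split_ifs <;> simp)
      have h3 := (integral_eq_zero_iff_of_nonneg
        (fun x => by simp only [bitC, ContinuousMap.coe_mk, Pi.zero_apply]; split_ifs <;> simp) h2).1 h1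
      filter_upwards [h3] with x hx _
      simpa [bitC] using hx
  refine ⟨μ, hμp, hμ, hsupp, ?_⟩
  have hfinN : ∀ j, {f : Sym2 V | f ∉ G.edgeSet ∧ Encodable.encode f < j}.Finite := fun j =>
    ((Set.finite_Iio j).preimage Encodable.encode_injective.injOn).subset fun e he => he.2
  let B : Sym2 V → ℕ → Finset (Sym2 V) := fun e j => ballF hA hfin e j ∪ (hfinN j).toFinset
  refine map_sample μ (B := B) (fun e => ?_) (mG_lipschitz hA hfin) ?_ ?_ ?_
  · exact Measurable.of_uncurry_left (f := fun (A : V → V → Bool) y => mG A e y)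
      (measurable_mG e) (x := A)
  · intro e a b hab
    refine Finset.union_subset_union ((cover_ballF hA hfin hc e).mono hab) fun f hf => ?_
    simp only [Set.Finite.mem_toFinset] at hf ⊢
    exact ⟨hf.1, hf.2.trans_le hab⟩
  · intro e f
    by_cases hf : f ∈ G.edgeSet
    · obtain ⟨n, hn⟩ := (cover_ballF hA hfin hc e).covers f hf
      exact ⟨n, Finset.mem_union_left _ hn⟩
    · exact ⟨Encodable.encode f + 1, Finset.mem_union_right _ (by simp [hf])⟩
  · intro e y
    have hB : ∀ j, mA μ e (B e j) y = mA μ e (ballF hA hfin e j) y := by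
      intro j
      have : tilt (B e j) y =ᵐ[μ] tilt (ballF hA hfin e j) y := by
        filter_upwards [hsupp] with x hx
        unfold tilt
        congr 1
        refine (Finset.sum_subset Finset.subset_union_left fun f hf hnf => ?_).symm
        rcases Finset.mem_union.1 hf with h | h
        · exact absurd h hnf
        · simp only [Set.Finite.mem_toFinset] at h
          simp [hx f h.1]
      unfold mA
      rw [integral_congr_ae this]
      congr 1
      refine integral_congr_ae ?_
      filter_upwards [this] with x hx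
      rw [hx]
    have hin : ∀ j, limsup (fun n => mBall A e j n y) atTop = mA μ e (ballF hA hfin e j) y := by
      intro j
      have hcov := cover_ballF hA hfin hc e
      have h1 := hμ _ hcov (bitC e * tiltC (ballF hA hfin e j) y)
      have h2 := hμ _ hcov (tiltC (ballF hA hfin e j) y)
      have h3 := h1.div h2 (integral_tilt_pos μ _ y).ne'
      refine Tendsto.limsup_eq (h3.congr fun n => ?_)
      rw [← mA_uni hA hfin e j n y]
      rfl
    simp only [mG, hin, hB]

end Main

end P143
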