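import Mathlib
import Vale.Agent.P143.Ball
import Vale.Agent.P143.Fusf
import Vale.Agent.P143.Algorithm

/-!
Passing from vertex labels to independent edge noise, and the final factor map.
-/

open MeasureTheory Filter ProbabilityTheory unitInterval

open scoped Classical

noncomputable section

namespace P143

/-- Index set of the random streams carried by a vertex. -/
abbrev Idx := Option ((ℕ × ℕ) × Bool)

lemma exists_stream : ∃ f : I → (Idx → ℝ), Measurable f ∧ (volume : Measure I).map f = nz Idx :=
  (nz Idx).exists_measurable_map_eq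

/-- Independent uniform streams extracted from one uniform label. -/
def stream : I → (Idx → ℝ) := exists_stream.choose

lemma measurable_stream : Measurable stream := exists_stream.choose_spec.1

lemma map_stream : (volume : Measure I).map stream = nz Idx := exists_stream.choose_spec.2

variable {V : Type*}

/-- Rank of `y` among the neighbours of `x`, by the first component. -/
def rank (A : V → V → Bool) (R : V → ℝ) (x y : V) : ℕ :=
  {c | isEdge A s(x, c) ∧ R c < R y}.ncard

/-- Noise of an ordered pair, read from its first vertex. -/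
def side (A : V → V → Bool) (Z : V × Idx → ℝ) (k : ℕ) (b : Bool) (x y : V) : ℝ :=
  Z (x, some ((rank A (fun v => Z (v, none)) x y, k), b))

/-- Noise of an unordered pair. -/
def lab (A : V → V → Bool) (Z : V × Idx → ℝ) (k : ℕ) (b : Bool) (e : Sym2 V) : ℝ :=
  Sym2.lift ⟨fun x y => if Z (x, none) < Z (y, none) then side A Z k b x y
      else if Z (y, none) < Z (x, none) then side A Z k b y x else 0,
    fun x y => by
      show (if _ then _ else if _ then _ else _) = (if _ then _ else if _ then _ else _)
      split_ifs with h1 h2 <;> first | rfl | exact absurd h2 (lt_asymm h1)⟩ e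

/-- The forest read off from vertex streams. -/
def forestOf (A : V → V → Bool) (Z : V × Idx → ℝ) (e : Sym2 V) : Bool :=
  if isEdge A e then
    sample (mG A) (fun r => lab A Z r.2 true r.1) (fun r => lab A Z r.2 false r.1) e
  else false

/-- The factor map. -/
def Phi (A : V → V → Bool) (U : V → I) : Sym2 V → Bool :=
  forestOf A fun p => stream (U p.1) p.2

section Measurable

variable [Countable V]

lemma measurable_rank (x y : V) :
    Measurable fun p : (V → V → Bool) × (V → ℝ) => rank p.1 p.2 x y := by
  refine measurable_ncard.comp (measurable_set_iff.2 fun c => ?_)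
  refine measurableSet_setOfPred.1 ?_
  exact (measurable_fst (measurableSet_isEdge s(x, c))).inter
    (measurableSet_lt ((measurable_pi_apply c).comp measurable_snd)
      ((measurable_pi_apply y).comp measurable_snd))

lemma measurable_side (k : ℕ) (b : Bool) (x y : V) :
    Measurable fun p : (V → V → Bool) × (V × Idx → ℝ) => side p.1 p.2 k b x y := by
  have hR : Measurable fun p : (V → V → Bool) × (V × Idx → ℝ) =>
      ((p.1, fun v => p.2 (v, none)) : (V → V → Bool) × (V → ℝ)) :=
    measurable_fst.prodMk
      (measurable_pi_lambda _ fun v => (measurable_pi_apply (v, none)).comp measurable_snd)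
  have h0 := (measurable_rank x y).comp hR
  have h1 : Measurable fun p : (V → V → Bool) × (V × Idx → ℝ) =>
      rank p.1 (fun v => p.2 (v, none)) x y := by simpa only [Function.comp_def] using h0
  have h2 : Measurable fun q : (V × Idx → ℝ) × ℕ => q.1 (x, some ((q.2, k), b)) :=
    measurable_from_prod_countable_left fun n => measurable_pi_apply (x, some ((n, k), b))
  have h3 : Measurable fun p : (V → V → Bool) × (V × Idx → ℝ) =>
      ((p.2, rank p.1 (fun v => p.2 (v, none)) x y) : (V × Idx → ℝ) × ℕ) := measurable_snd.prodMk h1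
  have h4 := h2.comp h3
  simpa only [Function.comp_def, side] using h4

lemma measurable_lab (k : ℕ) (b : Bool) (e : Sym2 V) :
    Measurable fun p : (V → V → Bool) × (V × Idx → ℝ) => lab p.1 p.2 k b e := by
  induction e using Sym2.inductionOn with
  | hf x y =>
    simp only [lab, Sym2.lift_mk]
    have hx : ∀ v : V, Measurable fun p : (V → V → Bool) × (V × Idx → ℝ) => p.2 (v, none) :=
      fun v => (measurable_pi_apply (v, none)).comp measurable_snd
    exact Measurable.ite (measurableSet_lt (hx x) (hx y)) (measurable_side k b x y)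
      (Measurable.ite (measurableSet_lt (hx y) (hx x)) (measurable_side k b y x) measurable_const)

lemma measurable_forestOf :
    Measurable fun p : (V → V → Bool) × (V × Idx → ℝ) => forestOf p.1 p.2 := by
  refine measurable_pi_lambda _ fun e => ?_
  unfold forestOf
  refine Measurable.ite (measurable_fst (measurableSet_isEdge e)) ?_ measurable_const
  exact (measurable_pi_apply e).comp (measurable_sample (m := fun A : V → V → Bool => mG A)
    measurable_mG measurable_fst
    (measurable_pi_lambda _ fun r => measurable_lab r.2 true r.1)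
    (measurable_pi_lambda _ fun r => measurable_lab r.2 false r.1))

lemma measurable_Phi :
    Measurable fun p : (V → V → Bool) × (V → I) => Phi p.1 p.2 := by
  unfold Phi
  exact measurable_forestOf.comp (measurable_fst.prodMk (measurable_pi_lambda _ fun q =>
    (measurable_pi_apply q.2).comp (measurable_stream.comp
      ((measurable_pi_apply q.1).comp measurable_snd))))

end Measurable

lemma lab_map {V' : Type*} (τ : V ≃ V') {A : V → V → Bool} {A' : V' → V' → Bool}
    (hA : ∀ a b, A' (τ a) (τ b) = A a b) (Z' : V' × Idx → ℝ) (k : ℕ) (b : Bool) (e : Sym2 V) :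
    lab A' Z' k b (Sym2.map τ e) = lab A (fun p => Z' (τ p.1, p.2)) k b e := by
  have hs : ∀ x y, side A' Z' k b (τ x) (τ y) = side A (fun p => Z' (τ p.1, p.2)) k b x y := by
    intro x y
    unfold side
    have : rank A' (fun v => Z' (v, none)) (τ x) (τ y) =
        rank A (fun v => Z' (τ v, none)) x y := by
      unfold rank
      rw [← Set.ncard_image_of_injective _ τ.injective]
      congr 1
      ext c
      obtain ⟨d, rfl⟩ := τ.surjective c
      simp only [Set.mem_ofPred_eq, τ.injective.mem_set_image]
      exact and_congr_left fun _ => isEdge_map hA s(x, d)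
    rw [this]
  induction e using Sym2.inductionOn with
  | hf x y => simp only [lab, Sym2.map_mk, Sym2.lift_mk, hs]

theorem Phi_map {V' : Type*} (τ : V ≃ V') (A' : V' → V' → Bool) (U' : V' → I) (e : Sym2 V) :
    Phi (fun a b => A' (τ a) (τ b)) (fun v => U' (τ v)) e = Phi A' U' (Sym2.map τ e) := by
  have hA : ∀ a b, A' (τ a) (τ b) = (fun a b => A' (τ a) (τ b)) a b := fun _ _ => rfl
  unfold Phi forestOf
  simp only [isEdge_map hA]
  split_ifs with h
  · have hm : ∀ (e : Sym2 V) (y : Sym2 V' → ℝ), mG A' (pairEquiv τ e) y =
        mG (fun a b => A' (τ a) (τ b)) e (fun f => y (pairEquiv τ f)) :=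
      fun e y => mG_map hA e y
    have hS := sample_equiv hm
      (fun r => lab A' (fun p => stream (U' p.1) p.2) r.2 true r.1)
      (fun r => lab A' (fun p => stream (U' p.1) p.2) r.2 false r.1) e
    refine Eq.trans ?_ hS.symm
    simp only [pairEquiv, Equiv.coe_fn_mk, lab_map τ hA]
  · rfl

lemma nz_elim {α β : Type*} :
    ((nz α).prod (nz β)).map (fun p => Sum.elim p.1 p.2) = nz (α ⊕ β) := by
  have hm : Measurable fun p : (α → ℝ) × (β → ℝ) => Sum.elim p.1 p.2 := by
    refine measurable_pi_lambda _ ?_
    rintro (a | b)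
    · exact (measurable_pi_apply a).comp measurable_fst
    · exact (measurable_pi_apply b).comp measurable_snd
  refine Measure.eq_infinitePi _ fun s t ht => ?_
  rw [Measure.map_apply hm (MeasurableSet.pi s.countable_toSet fun r _ => ht r)]
  have e : (fun p : (α → ℝ) × (β → ℝ) => Sum.elim p.1 p.2) ⁻¹' (s : Set (α ⊕ β)).pi t =
      (s.toLeft : Set α).pi (fun a => t (.inl a)) ×ˢ (s.toRight : Set β).pi (fun b => t (.inr b)) := by
    ext ⟨p, r⟩
    simp only [Set.mem_preimage, Set.mem_pi, Finset.mem_coe, Set.mem_prod, Finset.mem_toLeft,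
      Finset.mem_toRight, Sum.forall, Sum.elim_inl, Sum.elim_inr]
  rw [e, Measure.prod_prod, nz, nz, Measure.infinitePi_pi _ fun a _ => ht _,
    Measure.infinitePi_pi _ fun b _ => ht _]
  conv_rhs => rw [← Finset.toLeft_disjSum_toRight (u := s), Finset.prod_disjSum]

lemma nz_split {α β : Type*} :
    (nz (α ⊕ β)).map (fun N => (fun a => N (.inl a), fun b => N (.inr b))) = (nz α).prod (nz β) := by
  have hm : Measurable fun p : (α → ℝ) × (β → ℝ) => Sum.elim p.1 p.2 := by
    refine measurable_pi_lambda _ ?_
    rintro (a | b)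
    · exact (measurable_pi_apply a).comp measurable_fst
    · exact (measurable_pi_apply b).comp measurable_snd
  have hs : Measurable fun N : α ⊕ β → ℝ => (fun a => N (.inl a), fun b => N (.inr b)) :=
    (measurable_pi_lambda _ fun a => measurable_pi_apply _).prodMk
      (measurable_pi_lambda _ fun b => measurable_pi_apply _)
  rw [← nz_elim, Measure.map_map hs hm]
  exact Measure.map_id

lemma nz_reindex {α β : Type*} {ι : α → β} (hι : Function.Injective ι) :
    (nz β).map (fun N => fun a => N (ι a)) = nz α := by
  have hm : Measurable fun (N : β → ℝ) (a : α) => N (ι a) :=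
    measurable_pi_lambda _ fun a => measurable_pi_apply _
  refine Measure.eq_infinitePi _ fun s t ht => ?_
  rw [Measure.map_apply hm (MeasurableSet.pi s.countable_toSet fun r _ => ht r)]
  let t' : β → Set ℝ := Function.extend ι t fun _ => Set.univ
  have ht' : ∀ a, t' (ι a) = t a := fun a => hι.extend_apply _ _ a
  have e : (fun (N : β → ℝ) (a : α) => N (ι a)) ⁻¹' (s : Set α).pi t =
      (s.map ⟨ι, hι⟩ : Set β).pi t' := by
    ext N; simp [Set.mem_pi, ht']
  have htm : ∀ r ∈ s.map ⟨ι, hι⟩, MeasurableSet (t' r) := by
    intro r hr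
    obtain ⟨a, _, rfl⟩ := Finset.mem_map.1 hr
    show MeasurableSet (t' (ι a))
    rw [ht']; exact ht a
  rw [e, nz, Measure.infinitePi_pi _ htm, Finset.prod_map]
  simp [ht']

lemma map_streams {V : Type*} :
    (Measure.infinitePi fun _ : V => (volume : Measure I)).map
      (fun U => fun p : V × Idx => stream (U p.1) p.2) = nz (V × Idx) := by
  have h1 : Measurable fun (U : V → I) (v : V) => stream (U v) :=
    measurable_pi_lambda _ fun v => measurable_stream.comp (measurable_pi_apply v)
  have h2 := Measure.infinitePi_map_curry_symm (fun (_ : V) (_ : Idx) => lam)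
  have e : (fun U : V → I => fun p : V × Idx => stream (U p.1) p.2) =
      ⇑(MeasurableEquiv.curry V Idx ℝ).symm ∘ fun (U : V → I) (v : V) => stream (U v) := by
    funext U p; rfl
  rw [e, ← Measure.map_map (MeasurableEquiv.measurable _) h1,
    Measure.infinitePi_map_pi _ (fun _ => measurable_stream), map_stream]
  exact h2

section Law

variable [Countable V] {A : V → V → Bool} {G : SimpleGraph V} (hA : CodesGraph A G)
  (hfin : ∀ v, (G.neighborSet v).Finite)

/-- Where the noise of a pair is read, given the first components `R`. -/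
def readAt (A : V → V → Bool) (R : V → ℝ) (c : (Sym2 V × ℕ) ⊕ (Sym2 V × ℕ)) (e : Sym2 V)
    (k : ℕ) (b : Bool) : (V × ((ℕ × ℕ) × Bool)) ⊕ ((Sym2 V × ℕ) ⊕ (Sym2 V × ℕ)) :=
  if isEdge A e then
    Sym2.lift ⟨fun x y =>
        if R x < R y then Sum.inl (x, ((rank A R x y, k), b))
        else if R y < R x then Sum.inl (y, ((rank A R y x, k), b)) else Sum.inr c,
      fun x y => by
        show (if _ then _ else if _ then _ else _) = (if _ then _ else if _ then _ else _)
        split_ifs with h1 h2 <;> first | rfl | exact absurd h2 (lt_asymm h1)⟩ e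
  else Sum.inr c

/-- The reading map. -/
def readMap (A : V → V → Bool) (R : V → ℝ) :
    (Sym2 V × ℕ) ⊕ (Sym2 V × ℕ) → (V × ((ℕ × ℕ) × Bool)) ⊕ ((Sym2 V × ℕ) ⊕ (Sym2 V × ℕ))
  | .inl (e, k) => readAt A R (.inl (e, k)) e k true
  | .inr (e, k) => readAt A R (.inr (e, k)) e k false

/-- Assembling streams from first components and the rest. -/
def assemble (R : V → ℝ) (S : V × ((ℕ × ℕ) × Bool) → ℝ) : V × Idx → ℝ
  | (v, none) => R v
  | (v, some i) => S (v, i)

omit [Countable V] in
lemma readAt_edge {R : V → ℝ} (hR : Function.Injective R) (S : V × ((ℕ × ℕ) × Bool) → ℝ)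
    (η : (Sym2 V × ℕ) ⊕ (Sym2 V × ℕ) → ℝ) (c : (Sym2 V × ℕ) ⊕ (Sym2 V × ℕ)) (e : Sym2 V)
    (k : ℕ) (b : Bool) (he : isEdge A e) :
    Sum.elim S η (readAt A R c e k b) = lab A (assemble R S) k b e := by
  induction e using Sym2.inductionOn with
  | hf x y =>
    simp only [readAt, if_pos he, lab, Sym2.lift_mk]
    have hne : R x ≠ R y := fun h => he.2.2 (hR h)
    rcases lt_or_gt_of_ne hne with h | h
    · simp [assemble, h, side]
    · simp [assemble, h, h.not_gt, side]

include hA hfin in
omit [Countable V] in
lemma readAt_injective {R : V → ℝ} (hR : Function.Injective R)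
    {c c' : (Sym2 V × ℕ) ⊕ (Sym2 V × ℕ)} {e e' : Sym2 V} {k k' : ℕ} {b b' : Bool}
    (h : readAt A R c e k b = readAt A R c' e' k' b') : c = c' ∨ (e = e' ∧ k = k' ∧ b = b') := by
  have key : ∀ (c : (Sym2 V × ℕ) ⊕ (Sym2 V × ℕ)) (e : Sym2 V) (k : ℕ) (b : Bool),
      (¬isEdge A e ∧ readAt A R c e k b = Sum.inr c) ∨
      ∃ x y, e = s(x, y) ∧ isEdge A s(x, y) ∧ R x < R y ∧
        readAt A R c e k b = Sum.inl (x, ((rank A R x y, k), b)) := by
    intro c e k b
    by_cases he : isEdge A e
    · induction e using Sym2.inductionOn with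
      | hf x y =>
        have hne : R x ≠ R y := fun h => he.2.2 (hR h)
        rcases lt_or_gt_of_ne hne with h | h
        · exact .inr ⟨x, y, rfl, he, h, by simp [readAt, he, h]⟩
        · exact .inr ⟨y, x, Sym2.eq_swap, Sym2.eq_swap ▸ he, h, by simp [readAt, he, h, h.not_gt]⟩
    · exact .inl ⟨he, by simp [readAt, he]⟩
  rcases key c e k b with ⟨-, h1⟩ | ⟨x, y, rfl, he, hxy, h1⟩ <;>
    rcases key c' e' k' b' with ⟨-, h2⟩ | ⟨x', y', rfl, he', hxy', h2⟩ <;> rw [h1, h2] at h
  · exact .inl (Sum.inr_injective h)
  · exact absurd h Sum.inr_ne_inl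
  · exact absurd h Sum.inl_ne_inr
  · simp only [Sum.inl.injEq, Prod.mk.injEq] at h
    obtain ⟨rfl, ⟨hr, rfl⟩, rfl⟩ := h
    refine .inr ⟨?_, rfl, rfl⟩
    have hlt : ∀ p q, isEdge A s(x, p) → isEdge A s(x, q) → R p < R q →
        rank A R x p < rank A R x q := by
      intro p q hp hq hpq
      refine Set.ncard_lt_ncard ?_ ((hfin x).subset fun c hc =>
        (SimpleGraph.mem_edgeSet _).1 ((isEdge_iff hA _).1 hc.1))
      refine ⟨fun c hc => ⟨hc.1, hc.2.trans hpq⟩, fun hsub => ?_⟩
      exact lt_irrefl _ (hsub (show p ∈ {c | isEdge A s(x, c) ∧ R c < R q} from ⟨hp, hpq⟩)).2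
    rcases lt_trichotomy (R y) (R y') with h | h | h
    · exact absurd hr (hlt _ _ he he' h).ne
    · rw [hR h]
    · exact absurd hr (hlt _ _ he' he h).ne'

include hA hfin in
omit [Countable V] in
lemma readMap_injective {R : V → ℝ} (hR : Function.Injective R) :
    Function.Injective (readMap A R) := by
  rintro (⟨e, k⟩ | ⟨e, k⟩) (⟨e', k'⟩ | ⟨e', k'⟩) h <;> simp only [readMap] at h <;>
    rcases readAt_injective hA hfin hR h with hc | ⟨rfl, rfl, hb⟩ <;>
    first | exact hc | rfl | simp at hb

include hA hfin in
theorem map_Phi (hc : G.Connected) :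
    ∃ μ : Measure (Sym2 V → Bool), IsProbabilityMeasure μ ∧
      (∀ F, Cover G F → ∀ φ : C(Sym2 V → Bool, ℝ),
        Tendsto (fun n => ∫ x, φ x ∂(uni (F n))) atTop (nhds (∫ x, φ x ∂μ))) ∧
      (Measure.infinitePi fun _ : V => (volume : Measure I)).map (Phi A) = μ := by
  obtain ⟨μ, hμp, hμ, hsupp, hlaw⟩ := fusf_sample hA hfin hc
  refine ⟨μ, hμp, hμ, ?_⟩
  have hF : Measurable fun Z : V × Idx → ℝ => forestOf A Z :=
    measurable_forestOf.comp (measurable_prodMk_left (x := A))
  have hst : Measurable fun (U : V → I) (p : V × Idx) => stream (U p.1) p.2 :=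
    measurable_pi_lambda _ fun q =>
      (measurable_pi_apply q.2).comp (measurable_stream.comp (measurable_pi_apply q.1))
  have e0 : Phi A = (fun Z => forestOf A Z) ∘ fun (U : V → I) (p : V × Idx) => stream (U p.1) p.2 :=
    rfl
  rw [e0, ← Measure.map_map hF hst, map_streams]
  -- split into first components and the rest
  let J := V × ((ℕ × ℕ) × Bool)
  have hass : Measurable fun p : (V → ℝ) × (J → ℝ) => assemble p.1 p.2 := by
    refine measurable_pi_lambda _ ?_
    rintro ⟨v, _ | i⟩
    · exact (measurable_pi_apply v).comp measurable_fst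
    · exact (measurable_pi_apply (v, i)).comp measurable_snd
  have hsplit : ((nz V).prod (nz J)).map (fun p => assemble p.1 p.2) = nz (V × Idx) := by
    let κ : V × Idx → V ⊕ J := fun p => match p with
      | (v, none) => .inl v
      | (v, some i) => .inr (v, i)
    have hκ : Function.Injective κ := by
      rintro ⟨v, _ | i⟩ ⟨v', _ | i'⟩ h <;> simp only [κ] at h <;> cases h <;> rfl
    have e1 : (fun p : (V → ℝ) × (J → ℝ) => assemble p.1 p.2) =
        (fun N : V ⊕ J → ℝ => fun a => N (κ a)) ∘ fun p => Sum.elim p.1 p.2 := by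
      funext p ⟨v, o⟩; cases o <;> rfl
    have hr : Measurable fun (N : V ⊕ J → ℝ) (a : V × Idx) => N (κ a) :=
      measurable_pi_lambda _ fun a => measurable_pi_apply _
    have hel : Measurable fun p : (V → ℝ) × (J → ℝ) => Sum.elim p.1 p.2 := by
      refine measurable_pi_lambda _ ?_
      rintro (a | b)
      · exact (measurable_pi_apply a).comp measurable_fst
      · exact (measurable_pi_apply b).comp measurable_snd
    rw [e1, ← Measure.map_map hr hel, nz_elim, nz_reindex hκ]
  rw [← hsplit, Measure.map_map hF hass]
  have hinj : ∀ᵐ R ∂(nz V), Function.Injective R := by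
    have h := (ae_injective (E := V))
    have h' := nz_reindex (ι := fun v : V => (v, 0)) (fun a b h => (Prod.ext_iff.1 h).1)
    rw [← h']
    refine (ae_map_iff (measurable_pi_lambda _ fun a => measurable_pi_apply _).aemeasurable ?_).2 ?_
    · have : {R : V → ℝ | Function.Injective R} = ⋂ a, ⋂ b, {R | a ≠ b → R a ≠ R b} := by
        ext R
        simp only [Set.mem_ofPred_eq, Set.mem_iInter]
        exact ⟨fun h a b hab he => hab (h he),
          fun h a b he => by by_contra hab; exact h a b hab he⟩
      rw [this]
      refine MeasurableSet.iInter fun a => MeasurableSet.iInter fun b => ?_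
      by_cases hab : a = b
      · simp [hab]
      · simpa [hab, Set.compl_def] using
          (measurableSet_eq_fun (measurable_pi_apply a) (measurable_pi_apply b)).compl
    · filter_upwards [h] with w hw using hw 0
  refine Measure.ext fun Bs hBs => ?_
  rw [Measure.map_apply (hF.comp hass) hBs, Measure.prod_apply ((hF.comp hass) hBs)]
  have hkey : ∀ᵐ R ∂(nz V), nz J (Prod.mk R ⁻¹' (((fun Z => forestOf A Z) ∘
      fun p : (V → ℝ) × (J → ℝ) => assemble p.1 p.2) ⁻¹' Bs)) = μ Bs := by
    filter_upwards [hinj] with R hR
    set P : Set (J → ℝ) := Prod.mk R ⁻¹' (((fun Z => forestOf A Z) ∘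
      fun p : (V → ℝ) × (J → ℝ) => assemble p.1 p.2) ⁻¹' Bs)
    let K := (Sym2 V × ℕ) ⊕ (Sym2 V × ℕ)
    let g : (Sym2 V × ℕ → ℝ) × (Sym2 V × ℕ → ℝ) → Sym2 V → Bool :=
      fun p e => if isEdge A e then sample (mG A) p.1 p.2 e else false
    have hsm : Measurable fun p : (Sym2 V × ℕ → ℝ) × (Sym2 V × ℕ → ℝ) => sample (mG A) p.1 p.2 :=
      measurable_sample (m := fun A : V → V → Bool => mG A) measurable_mG
        (a := fun _ => A) measurable_const measurable_fst measurable_snd
    have hg : Measurable g := measurable_pi_lambda _ fun e => by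
      by_cases he : isEdge A e
      · simp only [g, if_pos he]; exact (measurable_pi_apply e).comp hsm
      · simp only [g, if_neg he]; exact measurable_const
    have hgμ : ((nz (Sym2 V × ℕ)).prod (nz (Sym2 V × ℕ))).map g = μ := by
      let mask : (Sym2 V → Bool) → (Sym2 V → Bool) :=
        fun x e => if isEdge A e then x e else false
      have hmask : Measurable mask := measurable_pi_lambda _ fun e => by
        by_cases he : isEdge A e
        · simp only [mask, if_pos he]; exact measurable_pi_apply e
        · simp only [mask, if_neg he]; exact measurable_const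
      have e2 : g = mask ∘ fun p => sample (mG A) p.1 p.2 := rfl
      rw [e2, ← Measure.map_map hmask hsm, hlaw]
      refine (Measure.map_congr ?_).trans Measure.map_id
      filter_upwards [hsupp] with x hx
      funext e
      by_cases he : isEdge A e
      · simp [mask, he]
      · simp [mask, he, hx e (fun h => he ((isEdge_iff hA e).2 h))]
    let T : (J → ℝ) × (K → ℝ) → (Sym2 V × ℕ → ℝ) × (Sym2 V × ℕ → ℝ) :=
      (fun N : K → ℝ => (fun a => N (.inl a), fun b => N (.inr b))) ∘
        (fun N : J ⊕ K → ℝ => fun a => N (readMap A R a)) ∘ fun p => Sum.elim p.1 p.2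
    have hT : Measurable T :=
      ((measurable_pi_lambda _ fun a => measurable_pi_apply _).prodMk
        (measurable_pi_lambda _ fun b => measurable_pi_apply _)).comp
      ((measurable_pi_lambda _ fun a => measurable_pi_apply _).comp
        (measurable_pi_lambda _ (by
          rintro (a | b)
          · exact (measurable_pi_apply a).comp measurable_fst
          · exact (measurable_pi_apply b).comp measurable_snd)))
    have hTmap : ((nz J).prod (nz K)).map T = (nz (Sym2 V × ℕ)).prod (nz (Sym2 V × ℕ)) := by
      have h1 : Measurable fun N : K → ℝ =>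
          ((fun a => N (.inl a), fun b => N (.inr b)) :
            (Sym2 V × ℕ → ℝ) × (Sym2 V × ℕ → ℝ)) :=
        (measurable_pi_lambda _ fun a => measurable_pi_apply _).prodMk
          (measurable_pi_lambda _ fun b => measurable_pi_apply _)
      have h2 : Measurable fun (N : J ⊕ K → ℝ) (a : K) => N (readMap A R a) :=
        measurable_pi_lambda _ fun a => measurable_pi_apply _
      have h3 : Measurable fun p : (J → ℝ) × (K → ℝ) => Sum.elim p.1 p.2 := by
        refine measurable_pi_lambda _ ?_
        rintro (a | b)
        · exact (measurable_pi_apply a).comp measurable_fst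
        · exact (measurable_pi_apply b).comp measurable_snd
      have h4 : ((nz J).prod (nz K)).map T =
          ((((nz J).prod (nz K)).map (fun p => Sum.elim p.1 p.2)).map
            (fun (N : J ⊕ K → ℝ) (a : K) => N (readMap A R a))).map
            (fun N : K → ℝ => (fun a => N (.inl a), fun b => N (.inr b))) := by
        rw [Measure.map_map h2 h3, Measure.map_map h1 (h2.comp h3)]
      rw [h4, nz_elim, nz_reindex (readMap_injective hA hfin hR)]
      exact nz_split
    have hpre : (g ∘ T) ⁻¹' Bs = P ×ˢ (Set.univ : Set (K → ℝ)) := by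
      ext ⟨S, η⟩
      simp only [Set.mem_preimage, Set.mem_prod, Set.mem_univ, and_true, P, Function.comp_apply]
      have : g (T (S, η)) = forestOf A (assemble R S) := by
        funext e
        simp only [g, forestOf]
        split_ifs with he
        · refine sample_local (E₀ := {f | isEdge A f})
            (fun f _ y y' h => mG_local A f fun t ht => h t ht) (fun f hf k => ?_)
            (fun f hf k => ?_) e he
          · exact readAt_edge hR S η _ f k true hf
          · exact readAt_edge hR S η _ f k false hf
        · rfl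
      rw [show g _ = _ from this]
    calc nz J P = ((nz J).prod (nz K)) (P ×ˢ Set.univ) := by
          rw [Measure.prod_prod, measure_univ, mul_one]
      _ = ((nz J).prod (nz K)) ((g ∘ T) ⁻¹' Bs) := by rw [hpre]
      _ = μ Bs := by
          rw [← Measure.map_apply (hg.comp hT) hBs, ← Measure.map_map hg hT, hTmap, hgμ]
  rw [lintegral_congr_ae hkey]
  simp

end Law

end P143
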