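import Mathlib
import Vale.Agent.P143.Defs
import Vale.Agent.P143.Fusf
import Vale.Agent.P143.Labels

/-!
From maximal forests to spanning trees of finite connected subgraphs.
-/

open MeasureTheory ProbabilityTheory Filter Topology unitInterval

open scoped Classical

noncomputable section

namespace P143

variable {V : Type*} {G : SimpleGraph V}

lemma edgeSet_finite {H : G.Subgraph} (hv : H.verts.Finite) : H.edgeSet.Finite :=
  (hv.toFinset.sym2.finite_toSet).subset fun e he => by
    simp only [Finset.mem_coe, Finset.mem_sym2_iff, Set.Finite.mem_toFinset]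
    exact fun v hv => H.mem_verts_of_mem_edge he hv

lemma support_mem {H : G.Subgraph} {S : Set (Sym2 V)} (hS : S ⊆ H.edgeSet) {u v : V}
    (p : (SimpleGraph.fromEdgeSet S).Walk u v) (hu : u ∈ H.verts) :
    ∀ x ∈ p.support, x ∈ H.verts := by
  induction p with
  | nil =>
    intro x hx
    simp only [SimpleGraph.Walk.support_nil, List.mem_singleton] at hx
    exact hx ▸ hu
  | cons h q ih =>
    intro x hx
    rcases List.mem_cons.1 (SimpleGraph.Walk.support_cons h q ▸ hx) with rfl | hx
    · exact hu
    · exact ih (H.edge_vert (hS h.1).symm) x hx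

lemma spanningTrees_eq {H : G.Subgraph} (hv : H.verts.Finite) (hc : H.Connected) :
    spanningTrees H = ((bases (edgeSet_finite hv).toFinset ∅).image conf : Set (Sym2 V → Bool)) := by
  ext x
  simp only [Finset.coe_image, Set.mem_image, Finset.mem_coe]
  constructor
  · rintro ⟨hsub, htree⟩
    have hfin : {e | x e = true}.Finite := (edgeSet_finite hv).subset hsub
    have hgr : gr hfin.toFinset = SimpleGraph.fromEdgeSet {e | x e = true} := by
      simp [gr]
    refine ⟨hfin.toFinset, mem_bases.2 ⟨⟨?_, ?_, ?_⟩, Finset.empty_subset _⟩, ?_⟩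
    · intro f hf
      simp only [Set.Finite.mem_toFinset] at hf ⊢
      exact hsub hf
    · rw [hgr]
      intro v c hcyc
      have hv' : v ∈ H.verts := by
        cases c with
        | nil => exact absurd rfl hcyc.ne_nil
        | cons h q => exact H.edge_vert (hsub h.1)
      refine htree.isAcyclic (c.induce H.verts (support_mem hsub c hv')) ?_
      rw [← SimpleGraph.Walk.map_isCycle_iff_of_injective
        (f := (SimpleGraph.Embedding.induce H.verts).toHom) Subtype.val_injective,
        SimpleGraph.Walk.map_induce]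
      exact hcyc
    · intro a b hab
      simp only [Set.Finite.mem_toFinset] at hab
      rw [hgr]
      exact (htree.connected ⟨a, H.edge_vert hab⟩ ⟨b, H.edge_vert hab.symm⟩).map
        (SimpleGraph.Embedding.induce H.verts).toHom
    · funext e
      simp [conf]
  · rintro ⟨T, hT, rfl⟩
    obtain ⟨⟨hTF, hac, hreach⟩, -⟩ := mem_bases.1 hT
    have hset : {e | conf T e = true} = (T : Set (Sym2 V)) := by ext e; simp [conf]
    have hsub : (T : Set (Sym2 V)) ⊆ H.edgeSet := fun e he => by simpa using hTF he
    refine ⟨hset ▸ hsub, ?_⟩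
    rw [hset]
    have hconn := SimpleGraph.Subgraph.connected_iff'.1 hc
    have hne : Nonempty H.verts := hconn.nonempty
    refine ⟨⟨fun a b => ?_⟩, hac.induce _⟩
    have hab := hconn a b
    rw [SimpleGraph.reachable_iff_reflTransGen] at hab
    have hg : (gr T).Reachable a b := by
      induction hab with
      | refl => exact .refl _
      | tail _ hs ih =>
        refine ih.trans (hreach _ _ ?_)
        rw [Set.Finite.mem_toFinset]
        exact hs
    obtain ⟨p⟩ := hg
    exact ⟨p.induce H.verts (support_mem hsub p a.2)⟩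

lemma uniformOn_spanningTrees {H : G.Subgraph} (hv : H.verts.Finite) (hc : H.Connected) :
    uniformOn (spanningTrees H) = uni (edgeSet_finite hv).toFinset := by
  rw [spanningTrees_eq hv hc]
  rfl

lemma cover_exhaustion {H : ℕ → G.Subgraph} (hH : IsExhaustion G H) :
    Cover G fun n => (edgeSet_finite (hH.2.1 n)).toFinset := by
  refine ⟨fun a b hab => ?_, fun n f hf => ?_, fun f hf => ?_⟩
  · intro f hf
    simp only [Set.Finite.mem_toFinset] at hf ⊢
    exact SimpleGraph.Subgraph.edgeSet_mono (hH.1 hab) hf
  · simp only [Set.Finite.mem_toFinset] at hf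
    exact (H n).edgeSet_subset hf
  · induction f using Sym2.inductionOn with
    | hf a b =>
      obtain ⟨n, hn⟩ := hH.2.2.2.2 a b hf
      exact ⟨n, by simpa using hn⟩

lemma exists_exhaustion {A : V → V → Bool} (hA : CodesGraph A G)
    (hfin : ∀ v, (G.neighborSet v).Finite) (hc : G.Connected) : ∃ H, IsExhaustion G H := by
  obtain ⟨r⟩ := hc.nonempty
  let R : ℕ → Set V := fun n => {v | reachN A s(r, r) n v}
  have hmono : ∀ {a b}, a ≤ b → R a ⊆ R b := fun hab v hv => reachN_mono _ v hab hv
  have hadj : ∀ {c v}, isEdge A s(c, v) → G.Adj c v := fun h => (isEdge_iff hA _).1 h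
  have hcov := cover_ballF hA hfin hc s(r, r)
  have hall : ∀ v, ∃ n, v ∈ R n := by
    intro v
    have hr := hc r v
    rw [SimpleGraph.reachable_iff_reflTransGen] at hr
    induction hr with
    | refl => exact ⟨0, by simp [R, reachN]⟩
    | tail _ hs ih =>
      obtain ⟨n, hn⟩ := ih
      exact ⟨n + 1, .inr ⟨_, hn, (isEdge_iff hA _).2 hs⟩⟩
  refine ⟨fun n => (⊤ : G.Subgraph).induce (R n), ?_, fun n => finite_reachN hA hfin _ n, ?_,
    hall, ?_⟩
  · exact fun a b hab => SimpleGraph.Subgraph.induce_mono_right (hmono hab)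
  · intro n
    have hrn : r ∈ R n := hmono (Nat.zero_le n) (by simp [R, reachN])
    rw [SimpleGraph.Subgraph.connected_iff']
    have key : ∀ k ≤ n, ∀ v : ((⊤ : G.Subgraph).induce (R n)).verts, v.1 ∈ R k →
        ((⊤ : G.Subgraph).induce (R n)).coe.Reachable ⟨r, hrn⟩ v := by
      intro k
      induction k with
      | zero =>
        intro _ v hv
        have : v.1 = r := by simpa [R, reachN] using hv
        have hvr : v = ⟨r, hrn⟩ := Subtype.ext this
        rw [hvr]
      | succ k ih =>
        intro hk v hv
        rcases hv with h | ⟨c, hc', he⟩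
        · exact ih (by omega) v h
        · have hcn : c ∈ R n := hmono (show k ≤ n by omega) hc'
          refine (ih (by omega) ⟨c, hcn⟩ hc').trans (SimpleGraph.Adj.reachable ?_)
          exact ⟨hcn, v.2, hadj he⟩
    exact (SimpleGraph.connected_iff_exists_forall_reachable _).2
      ⟨⟨r, hrn⟩, fun v => key n le_rfl v v.2⟩
  · intro a b hab
    obtain ⟨n, hn⟩ := hall a
    obtain ⟨k, hk⟩ := hall b
    exact ⟨max n k, hmono (le_max_left n k) hn, hmono (le_max_right n k) hk, hab⟩

theorem isFreeUSF_map_Phi [Countable V] {A : V → V → Bool} (hA : CodesGraph A G)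
    (hfin : ∀ v, (G.neighborSet v).Finite) (hc : G.Connected) :
    IsFreeUSF G ((Measure.infinitePi fun _ : V => (volume : Measure I)).map (Phi A)) := by
  obtain ⟨μ, hμp, hμ, hmap⟩ := map_Phi hA hfin hc
  rw [hmap]
  refine ⟨hμp, exists_exhaustion hA hfin hc, fun H hH f => ?_⟩
  refine (hμ _ (cover_exhaustion hH) f).congr fun n => ?_
  rw [uniformOn_spanningTrees (hH.2.1 n) (hH.2.2.1 n)]

end P143
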