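import Mathlib

/-!
Cayley graphs of finitely generated groups.
-/

namespace P143

variable {Γ : Type*} [Group Γ] {S : Finset Γ}

lemma countable_of_closure (hS : Subgroup.closure (S : Set Γ) = ⊤) : Countable Γ := by
  let f : FreeGroup (S : Set Γ) →* Γ := FreeGroup.lift Subtype.val
  have hf : Function.Surjective f := by
    rw [← MonoidHom.range_eq_top]
    simp only [f, FreeGroup.range_lift_eq_closure, Subtype.range_coe]
    exact hS
  have : Countable (S : Set Γ) := S.countable_toSet.to_subtype
  have : Countable (FreeGroup (S : Set Γ)) := Quot.mk_surjective.countable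
  exact hf.countable

lemma mulCayley_connected (hS : Subgroup.closure (S : Set Γ) = ⊤) :
    (SimpleGraph.mulCayley (S : Set Γ)).Connected := by
  have key : ∀ g ∈ Subgroup.closure (S : Set Γ), ∀ a : Γ,
      (SimpleGraph.mulCayley (S : Set Γ)).Reachable a (a * g) := by
    intro g hg
    induction hg using Subgroup.closure_induction with
    | mem x hx =>
      intro a
      by_cases h : a = a * x
      · rw [← h]
      · exact ((SimpleGraph.mulCayley_adj _ _ _).2 ⟨h, .inl (by simpa using hx)⟩).reachable
    | one => intro a; simp
    | mul x y _ _ hx hy => intro a; exact (hx a).trans (mul_assoc a x y ▸ hy (a * x))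
    | inv x _ hx =>
      intro a
      have h := hx (a * x⁻¹)
      rw [inv_mul_cancel_right] at h
      exact h.symm
  refine (SimpleGraph.connected_iff_exists_forall_reachable _).2 ⟨1, fun v => ?_⟩
  simpa using key v (hS ▸ Subgroup.mem_top v) 1

lemma mulCayley_finite (u : Γ) :
    ((SimpleGraph.mulCayley (S : Set Γ)).neighborSet u).Finite := by
  refine (((S.finite_toSet).image (fun s => u * s)).union
    ((S.finite_toSet).image (fun s => u * s⁻¹))).subset fun v hv => ?_
  rcases ((SimpleGraph.mulCayley_adj _ _ _).1 hv).2 with h | h
  · exact .inl ⟨_, h, by simp⟩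
  · exact .inr ⟨_, h, by simp⟩

end P143
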